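import Vale.Agent.Lib.P067.A.Lift

/-!
# P067 part A, module Algo: the correction algorithm (section A7 of the text)

Strong induction on `cnt K F`.  If `F` is locally minimal take `h = 0`.  Otherwise there are `J0, x0, b` with
`nm (lk F J0 + dl b) < nm (lk F J0)` on the link; by `cntL_eq`, `cnt_lift` the number `cnt K (F + dl (lift b))` is
strictly smaller than `cnt K F`, so smaller by at least one, and
`cnt (K-1) (lift b) ≤ 2^n |HH H J0| ≤ 2^n Q` (`HH H J0 ≤ H s` for some `s ∈ J0`).  Apply the induction hypothesis to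
`F + dl (lift b)` and add.
-/

namespace Vale.P067.PA

open scoped Classical

variable {S : Type*} [Fintype S] {G : Type*} [Group G] [Finite G] (H : S → Subgroup G)

private theorem algo_cnt_zero (K : ℕ) : cnt K (0 : Finset S → G → ZMod 2) = 0 := by
  unfold cnt
  apply Finset.sum_eq_zero
  intro J _
  have : IsEmpty {y : G // (0 : Finset S → G → ZMod 2) J y ≠ 0} := ⟨fun y => y.2 rfl⟩
  exact Nat.card_of_isEmpty

private theorem algo_cnt_add (K : ℕ) (f g : Finset S → G → ZMod 2) :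
    (cnt K (f + g) : ℝ) ≤ cnt K f + cnt K g := by
  have H : S → Subgroup G := fun _ => ⊥
  rw [cnt_eq H 1 K, cnt_eq H 1 K, cnt_eq H 1 K, ← mul_add]
  exact mul_le_mul_of_nonneg_left (nm_add_le H ∅ 1 K f g) (Nat.cast_nonneg _)

private theorem algo_card_le (Q : ℝ) (hQ : ∀ s, (Nat.card (H s) : ℝ) ≤ Q) (J0 : Finset S)
    (h0 : J0.Nonempty) : (Nat.card (HH H J0) : ℝ) ≤ Q := by
  obtain ⟨s, hs⟩ := h0
  have hle : HH H J0 ≤ H s := iInf₂_le s hs
  have h1 : Nat.card (HH H J0) ≤ Nat.card (H s) :=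
    Nat.card_le_card_of_injective _ (Subgroup.inclusion_injective hle)
  exact le_trans (by exact_mod_cast h1) (hQ s)

/-- integer version -/
theorem correct_cnt (Q : ℝ) (hQ : ∀ s, (Nat.card (H s) : ℝ) ≤ Q) (K : ℕ) (hK : 1 ≤ K)
    (F : Finset S → G → ZMod 2) (hF : InvL H ∅ K F) :
    ∃ h : Finset S → G → ZMod 2, InvL H ∅ (K - 1) h ∧ LocMin H K (F + dl h) ∧
      (cnt (K - 1) h : ℝ) ≤ 2 ^ Fintype.card S * Q * ((cnt K F : ℝ) - cnt K (F + dl h)) := by
  obtain ⟨N, hN⟩ : ∃ N, cnt K F = N := ⟨_, rfl⟩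
  induction N using Nat.strong_induction_on generalizing F with
  | _ N ih =>
  by_cases hL : LocMin H K F
  · refine ⟨0, InvL.zero H ∅ (K - 1), ?_, ?_⟩
    · rw [dl_zero, add_zero]
      exact hL
    · rw [dl_zero, add_zero, sub_self, mul_zero, algo_cnt_zero, Nat.cast_zero]
  · unfold LocMin at hL
    push Not at hL
    obtain ⟨J0, h0, hc, x0, b, hb, hlt⟩ := hL
    have hpos : (0 : ℝ) < Nat.card (HH H J0) := by exact_mod_cast Nat.card_pos
    have hlt2 : cntL H J0 x0 (K - J0.card) (lk F J0 + dl b) <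
        cntL H J0 x0 (K - J0.card) (lk F J0) := by
      have : (cntL H J0 x0 (K - J0.card) (lk F J0 + dl b) : ℝ) <
          cntL H J0 x0 (K - J0.card) (lk F J0) := by
        rw [cntL_eq, cntL_eq]
        exact mul_lt_mul_of_pos_left hlt hpos
      exact_mod_cast this
    have hcl := cnt_lift H K F J0 hc x0 b
    have hInvl := lift_InvL H K J0 hc x0 b hb
    have hlt3 : cnt K (F + dl (lift H J0 x0 b)) < cnt K F := by omega
    have hF' : InvL H ∅ K (F + dl (lift H J0 x0 b)) := by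
      apply hF.add
      have h1 := hInvl.dl
      rwa [Nat.sub_add_cancel hK] at h1
    obtain ⟨h', hh1, hh2, hh3⟩ := ih _ (by omega) _ hF' rfl
    refine ⟨lift H J0 x0 b + h', hInvl.add hh1, ?_, ?_⟩
    · rw [dl_add, ← add_assoc]
      exact hh2
    · rw [dl_add, ← add_assoc]
      have hQ0 := algo_card_le H Q hQ J0 h0
      have hle := cnt_lift_le H (K - 1) J0 x0 b
      have hle' : (cnt (K - 1) (lift H J0 x0 b) : ℝ) ≤
          2 ^ Fintype.card S * Nat.card (HH H J0) := by exact_mod_cast hle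
      have h2 : (0 : ℝ) < 2 ^ Fintype.card S := by positivity
      have hle2 : (cnt (K - 1) (lift H J0 x0 b) : ℝ) ≤ 2 ^ Fintype.card S * Q :=
        hle'.trans (mul_le_mul_of_nonneg_left hQ0 h2.le)
      have hQpos : 0 < 2 ^ Fintype.card S * Q := mul_pos h2 (hpos.trans_le hQ0)
      have hge : (1 : ℝ) ≤ (cnt K F : ℝ) - cnt K (F + dl (lift H J0 x0 b)) := by
        have : (cnt K (F + dl (lift H J0 x0 b)) : ℝ) + 1 ≤ cnt K F := by exact_mod_cast hlt3
        linarith
      calc (cnt (K - 1) (lift H J0 x0 b + h') : ℝ)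
          ≤ cnt (K - 1) (lift H J0 x0 b) + cnt (K - 1) h' := algo_cnt_add (K - 1) _ _
        _ ≤ 2 ^ Fintype.card S * Q + 2 ^ Fintype.card S * Q *
            ((cnt K (F + dl (lift H J0 x0 b)) : ℝ) -
              cnt K (F + dl (lift H J0 x0 b) + dl h')) := add_le_add hle2 hh3
        _ ≤ 2 ^ Fintype.card S * Q * ((cnt K F : ℝ) - cnt K (F + dl (lift H J0 x0 b))) +
            2 ^ Fintype.card S * Q *
            ((cnt K (F + dl (lift H J0 x0 b)) : ℝ) -
              cnt K (F + dl (lift H J0 x0 b) + dl h')) := by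
            refine add_le_add ?_ le_rfl
            exact le_mul_of_one_le_right hQpos.le hge
        _ = 2 ^ Fintype.card S * Q *
            ((cnt K F : ℝ) - cnt K (F + dl (lift H J0 x0 b) + dl h')) := by ring

theorem correct (Q : ℝ) (hQ : ∀ s, (Nat.card (H s) : ℝ) ≤ Q) (K : ℕ) (hK : 1 ≤ K)
    (F : Finset S → G → ZMod 2) (hF : InvL H ∅ K F) :
    ∃ h : Finset S → G → ZMod 2, InvL H ∅ (K - 1) h ∧ LocMin H K (F + dl h) ∧
      nm H ∅ 1 (K - 1) h ≤
        2 ^ Fintype.card S * Q * (nm H ∅ 1 K F - nm H ∅ 1 K (F + dl h)) := by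
  obtain ⟨h, h1, h2, h3⟩ := correct_cnt H Q hQ K hK F hF
  refine ⟨h, h1, h2, ?_⟩
  have hG : (0 : ℝ) < Nat.card G := by exact_mod_cast Nat.card_pos
  rw [cnt_eq H 1, cnt_eq H 1, cnt_eq H 1] at h3
  refine le_of_mul_le_mul_left ?_ hG
  calc (Nat.card G : ℝ) * nm H ∅ 1 (K - 1) h
      ≤ 2 ^ Fintype.card S * Q *
        ((Nat.card G : ℝ) * nm H ∅ 1 K F - (Nat.card G : ℝ) * nm H ∅ 1 K (F + dl h)) := h3
    _ = (Nat.card G : ℝ) *
        (2 ^ Fintype.card S * Q * (nm H ∅ 1 K F - nm H ∅ 1 K (F + dl h))) := by ring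

end Vale.P067.PA
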