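import Vale.Agent.Lib.P067.A.Basic

/-!
# P067 part A, module Av: averages

`av H J x φ` is the average of `φ (x h)` over `h ∈ HH H J`, `Ex` the average over the group.
Use `finsum_eq_sum_of_fintype` (instances `Fintype.ofFinite`); `av_inv`: translation of the sum over the
subgroup (`Equiv.mulLeft`); `Ex_av`: exchange the two sums and translate by `h`; `Ex_mul_av`: `ψ x = ψ (x h)`, so
`ψ x * av H J x φ = av H J x (ψ φ)`, then `Ex_av`.
-/

namespace Vale.P067.PA

open scoped Classical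

variable {S : Type*} [Fintype S] {G : Type*} [Group G]

theorem mem_HH (H : S → Subgroup G) (J : Finset S) (g : G) : g ∈ HH H J ↔ ∀ s ∈ J, g ∈ H s := by
  simp [HH, Subgroup.mem_iInf]

theorem HH_anti (H : S → Subgroup G) {J J' : Finset S} (h : J ⊆ J') : HH H J' ≤ HH H J := by
  intro g hg
  rw [mem_HH] at hg ⊢
  exact fun s hs => hg s (h hs)

theorem HH_empty (H : S → Subgroup G) : HH H (∅ : Finset S) = ⊤ := by
  ext g
  simp [mem_HH]

theorem ind_nonneg (p : Prop) : 0 ≤ ind p := by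
  unfold ind; split_ifs <;> norm_num

theorem ind_le_one (p : Prop) : ind p ≤ 1 := by
  unfold ind; split_ifs <;> norm_num

theorem ind_mono {p q : Prop} (h : p → q) : ind p ≤ ind q := by
  unfold ind
  by_cases hp : p
  · rw [if_pos hp, if_pos (h hp)]
  · rw [if_neg hp]; split_ifs <;> norm_num

variable [Finite G] (H : S → Subgroup G)

private theorem av_eq (J : Finset S) [Fintype (HH H J)] (x : G) (φ : G → ℝ) :
    av H J x φ = (∑ h : HH H J, φ (x * h)) / Nat.card (HH H J) := by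
  unfold av
  rw [finsum_eq_sum_of_fintype]

private theorem av_card_pos (J : Finset S) : (0 : ℝ) < Nat.card (HH H J) := by
  exact_mod_cast Nat.card_pos

theorem av_nonneg (J : Finset S) (x : G) (φ : G → ℝ) (h : ∀ y, 0 ≤ φ y) : 0 ≤ av H J x φ := by
  letI : Fintype (HH H J) := Fintype.ofFinite _
  rw [av_eq]
  exact div_nonneg (Finset.sum_nonneg fun i _ => h _) (av_card_pos H J).le

theorem av_mono (J : Finset S) (x : G) (φ ψ : G → ℝ) (h : ∀ y, φ y ≤ ψ y) :
    av H J x φ ≤ av H J x ψ := by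
  letI : Fintype (HH H J) := Fintype.ofFinite _
  rw [av_eq, av_eq]
  exact div_le_div_of_nonneg_right (Finset.sum_le_sum fun i _ => h _) (av_card_pos H J).le

theorem av_congr (J : Finset S) (x : G) (φ ψ : G → ℝ)
    (h : ∀ g ∈ HH H J, φ (x * g) = ψ (x * g)) : av H J x φ = av H J x ψ := by
  letI : Fintype (HH H J) := Fintype.ofFinite _
  rw [av_eq, av_eq]
  congr 1
  exact Finset.sum_congr rfl fun i _ => h i i.2

theorem av_add (J : Finset S) (x : G) (φ ψ : G → ℝ) :
    av H J x (fun y => φ y + ψ y) = av H J x φ + av H J x ψ := by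
  letI : Fintype (HH H J) := Fintype.ofFinite _
  rw [av_eq, av_eq, av_eq, Finset.sum_add_distrib, add_div]

theorem av_sum {ι : Type*} (J : Finset S) (x : G) (s : Finset ι) (φ : ι → G → ℝ) :
    av H J x (fun y => ∑ i ∈ s, φ i y) = ∑ i ∈ s, av H J x (φ i) := by
  letI : Fintype (HH H J) := Fintype.ofFinite _
  simp only [av_eq]
  rw [Finset.sum_comm, Finset.sum_div]

theorem av_const_mul (J : Finset S) (x : G) (c : ℝ) (φ : G → ℝ) :
    av H J x (fun y => c * φ y) = c * av H J x φ := by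
  letI : Fintype (HH H J) := Fintype.ofFinite _
  rw [av_eq, av_eq, ← Finset.mul_sum, mul_div_assoc]

theorem av_const (J : Finset S) (x : G) (c : ℝ) : av H J x (fun _ => c) = c := by
  letI : Fintype (HH H J) := Fintype.ofFinite _
  rw [av_eq]
  have h := av_card_pos H J
  rw [Finset.sum_const, Finset.card_univ, ← Nat.card_eq_fintype_card, nsmul_eq_mul]
  field_simp

theorem av_inv (J : Finset S) (x : G) (φ : G → ℝ) (h : G) (hh : h ∈ HH H J) :
    av H J (x * h) φ = av H J x φ := by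
  letI : Fintype (HH H J) := Fintype.ofFinite _
  rw [av_eq, av_eq]
  congr 1
  refine Fintype.sum_equiv (Equiv.mulLeft (⟨h, hh⟩ : HH H J)) _ _ ?_
  intro g
  simp [mul_assoc]

theorem av_of_inv (J : Finset S) (x : G) (φ : G → ℝ)
    (hφ : ∀ y, ∀ h ∈ HH H J, φ (y * h) = φ y) : av H J x φ = φ x := by
  rw [av_congr H J x φ (fun _ => φ x) (fun g hg => hφ x g hg), av_const]

theorem av_empty (x : G) (φ : G → ℝ) : av H ∅ x φ = Ex φ := by
  letI : Fintype (HH H (∅ : Finset S)) := Fintype.ofFinite _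
  unfold Ex
  have hN : Nat.card (HH H (∅ : Finset S)) = Nat.card G := by
    rw [HH_empty]; exact Subgroup.card_top
  rw [av_eq, hN]
  congr 1
  letI : Fintype G := Fintype.ofFinite G
  rw [finsum_eq_sum_of_fintype]
  have hall : ∀ g : G, g ∈ HH H (∅ : Finset S) := fun g => by rw [HH_empty]; trivial
  refine Finset.sum_bij' (fun (h : HH H (∅ : Finset S)) _ => x * (h : G))
    (fun g _ => (⟨x⁻¹ * g, hall _⟩ : HH H (∅ : Finset S))) ?_ ?_ ?_ ?_ ?_
  · intro a _; exact Finset.mem_univ _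
  · intro a _; exact Finset.mem_univ _
  · intro a _; ext; simp
  · intro a _; simp
  · intro a _; rfl

omit [Group G] in
private theorem Ex_eq [Fintype G] (φ : G → ℝ) : Ex φ = (∑ x : G, φ x) / Nat.card G := by
  unfold Ex
  rw [finsum_eq_sum_of_fintype]

omit [Group G] in
theorem Ex_nonneg (φ : G → ℝ) (h : ∀ y, 0 ≤ φ y) : 0 ≤ Ex φ := by
  letI : Fintype G := Fintype.ofFinite G
  rw [Ex_eq]
  exact div_nonneg (Finset.sum_nonneg fun i _ => h _) (Nat.cast_nonneg _)

omit [Group G] in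
theorem Ex_mono (φ ψ : G → ℝ) (h : ∀ y, φ y ≤ ψ y) : Ex φ ≤ Ex ψ := by
  letI : Fintype G := Fintype.ofFinite G
  rw [Ex_eq, Ex_eq]
  exact div_le_div_of_nonneg_right (Finset.sum_le_sum fun i _ => h _) (Nat.cast_nonneg _)

omit [Group G] in
theorem Ex_add (φ ψ : G → ℝ) : Ex (fun y => φ y + ψ y) = Ex φ + Ex ψ := by
  letI : Fintype G := Fintype.ofFinite G
  rw [Ex_eq, Ex_eq, Ex_eq, Finset.sum_add_distrib, add_div]

omit [Group G] in
theorem Ex_sum {ι : Type*} (s : Finset ι) (φ : ι → G → ℝ) :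
    Ex (fun y => ∑ i ∈ s, φ i y) = ∑ i ∈ s, Ex (φ i) := by
  letI : Fintype G := Fintype.ofFinite G
  simp only [Ex_eq]
  rw [Finset.sum_comm, Finset.sum_div]

omit [Group G] in
theorem Ex_const_mul (c : ℝ) (φ : G → ℝ) : Ex (fun y => c * φ y) = c * Ex φ := by
  letI : Fintype G := Fintype.ofFinite G
  rw [Ex_eq, Ex_eq, ← Finset.mul_sum, mul_div_assoc]

theorem Ex_const (c : ℝ) : Ex (fun _ : G => c) = c := by
  letI : Fintype G := Fintype.ofFinite G
  rw [Ex_eq]
  have h : (0 : ℝ) < Nat.card G := by exact_mod_cast Nat.card_pos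
  rw [Finset.sum_const, Finset.card_univ, ← Nat.card_eq_fintype_card, nsmul_eq_mul]
  field_simp

omit [Group G] in
/-- a nonnegative function with average zero vanishes -/
theorem Ex_eq_zero (φ : G → ℝ) (h : ∀ y, 0 ≤ φ y) (h0 : Ex φ = 0) (y : G) : φ y = 0 := by
  letI : Fintype G := Fintype.ofFinite G
  haveI : Nonempty G := ⟨y⟩
  rw [Ex_eq] at h0
  have hc : (Nat.card G : ℝ) ≠ 0 := by
    have : 0 < Nat.card G := Nat.card_pos
    positivity
  have h1 : ∑ x : G, φ x = 0 := by
    rcases div_eq_zero_iff.mp h0 with h1 | h1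
    · exact h1
    · exact absurd h1 hc
  exact (Finset.sum_eq_zero_iff_of_nonneg fun i _ => h i).mp h1 y (Finset.mem_univ _)

theorem Ex_av (J : Finset S) (φ : G → ℝ) : Ex (fun x => av H J x φ) = Ex φ := by
  letI : Fintype G := Fintype.ofFinite G
  letI : Fintype (HH H J) := Fintype.ofFinite _
  have hc := av_card_pos H J
  rw [Ex_eq, Ex_eq]
  congr 1
  simp only [av_eq]
  rw [← Finset.sum_div, Finset.sum_comm]
  have h1 : ∀ h : HH H J, ∑ x : G, φ (x * h) = ∑ x : G, φ x := by
    intro h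
    exact Fintype.sum_equiv (Equiv.mulRight (h : G)) _ _ (fun _ => rfl)
  rw [Finset.sum_congr rfl fun h _ => h1 h, Finset.sum_const, Finset.card_univ,
    ← Nat.card_eq_fintype_card, nsmul_eq_mul]
  field_simp

theorem Ex_mul_av (J : Finset S) (φ ψ : G → ℝ)
    (hψ : ∀ y, ∀ h ∈ HH H J, ψ (y * h) = ψ y) :
    Ex (fun x => ψ x * av H J x φ) = Ex (fun x => ψ x * φ x) := by
  rw [← Ex_av H J (fun x => ψ x * φ x)]
  congr 1
  funext x
  rw [← av_const_mul]
  exact av_congr H J x _ _ fun g hg => by simp only [hψ x g hg]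

end Vale.P067.PA
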