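import Vale.Agent.Lib.P067.A.Fat

/-!
# P067 part A, module BadM: measure of the bad events (section A3 of the text)

`bad_le`: `ind (Bad J s s' x) = ind (¬ Fat J x) * (φ x * ψ x)` with `φ, ψ` the indicators of `Fat (insert s J)`,
`Fat (insert s' J)`; by `Ex_mul_av` (the indicator of `¬ Fat J` is invariant, `fat_inv`) its average is
`Ex (ind (¬ Fat J x) * av H J x (φ ψ))`.  Where `¬ Fat J x`, `a = av φ`, `b = av ψ` satisfy `a + b < η J.card`
(two different terms of the sum in `fat_lt`, all terms nonnegative), and `Spec` gives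
`av (φ ψ) ≤ a b + lam sqrt (a b) ≤ (η + lam)(a + b)` (`φ² = φ`).  Then `Ex_av`.
`totBad_le`: sum, `Ex (ind (Fat (insert s J)))` summed over `(J, s)` gives `(j+1) mass (j+1)`; the other index has
at most `n` values.
-/

namespace Vale.P067.PA

open scoped Classical

variable {S : Type*} [Fintype S] {G : Type*} [Group G] [Finite G] (H : S → Subgroup G)
  (f : Finset S → G → ZMod 2) (K : ℕ) (η : ℕ → ℝ)

theorem bad_le (hf : InvL H ∅ K f) (hη : ∀ j, 0 < η j) (lam : ℝ) (hl : 0 ≤ lam)
    (hs : Spec H lam) (J : Finset S) (s s' : S) (h1 : s ∉ J) (h2 : s' ∉ J) (h3 : s ≠ s')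
    (hJ : J.card < K) :
    Ex (fun x => ind (Bad H f K η J s s' x)) ≤
      (η J.card + lam) * (Ex (fun x => ind (Fat H f K η (insert s J) x)) +
        Ex (fun x => ind (Fat H f K η (insert s' J) x))) := by
  have hη0 : 0 < η J.card := hη _
  -- invariance
  have iφ : ∀ x, ∀ h ∈ HH H (insert s J), ind (Fat H f K η (insert s J) (x * h)) =
      ind (Fat H f K η (insert s J) x) := by
    intro x h hh
    exact congrArg ind (propext (fat_inv H f K η hf (insert s J) x h hh))
  have iψ : ∀ x, ∀ h ∈ HH H (insert s' J), ind (Fat H f K η (insert s' J) (x * h)) =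
      ind (Fat H f K η (insert s' J) x) := by
    intro x h hh
    exact congrArg ind (propext (fat_inv H f K η hf (insert s' J) x h hh))
  have iw : ∀ y, ∀ h ∈ HH H J, ind (¬ Fat H f K η J (y * h)) = ind (¬ Fat H f K η J y) := by
    intro y h hh
    exact congrArg ind (propext (not_congr (fat_inv H f K η hf J y h hh)))
  have e1 : (fun x => ind (Bad H f K η J s s' x)) = fun x => ind (¬ Fat H f K η J x) *
      (ind (Fat H f K η (insert s J) x) * ind (Fat H f K η (insert s' J) x)) := by
    funext x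
    unfold Bad ind
    by_cases a : Fat H f K η (insert s J) x <;> by_cases b : Fat H f K η (insert s' J) x <;>
      by_cases c : Fat H f K η J x <;> simp [a, b, c]
  rw [e1, ← Ex_mul_av H J (fun x => ind (Fat H f K η (insert s J) x) *
    ind (Fat H f K η (insert s' J) x)) (fun x => ind (¬ Fat H f K η J x)) iw]
  have e2 : (η J.card + lam) * (Ex (fun x => ind (Fat H f K η (insert s J) x)) +
      Ex (fun x => ind (Fat H f K η (insert s' J) x))) =
      Ex (fun x => (η J.card + lam) * (av H J x (fun y => ind (Fat H f K η (insert s J) y)) +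
        av H J x (fun y => ind (Fat H f K η (insert s' J) y)))) := by
    rw [Ex_const_mul, Ex_add, Ex_av, Ex_av]
  rw [e2]
  refine Ex_mono _ _ fun x => ?_
  have ha : 0 ≤ av H J x (fun y => ind (Fat H f K η (insert s J) y)) :=
    av_nonneg H J x _ fun y => ind_nonneg _
  have hb : 0 ≤ av H J x (fun y => ind (Fat H f K η (insert s' J) y)) :=
    av_nonneg H J x _ fun y => ind_nonneg _
  by_cases hx : Fat H f K η J x
  · have e3 : ind (¬ Fat H f K η J x) = 0 := by
      unfold ind
      rw [if_neg (not_not.2 hx)]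
    rw [e3, zero_mul]
    exact mul_nonneg (by linarith) (by linarith)
  · have e3 : ind (¬ Fat H f K η J x) = 1 := by
      unfold ind
      rw [if_pos hx]
    rw [e3, one_mul]
    have h4 := hs J s s' h1 h2 h3 (fun y => ind (Fat H f K η (insert s J) y))
      (fun y => ind (Fat H f K η (insert s' J) y)) iφ iψ x
    have sq : ∀ p : Prop, ind p ^ 2 = ind p := by
      intro p
      unfold ind
      split_ifs <;> norm_num
    simp only [sq] at h4
    have h5 := (abs_le.1 h4).2
    have h6 : av H J x (fun y => ind (Fat H f K η (insert s J) y)) +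
        av H J x (fun y => ind (Fat H f K η (insert s' J) y)) < η J.card := by
      have h7 := mt (fat_lt H f K η J x hJ).2 hx
      push Not at h7
      refine lt_of_le_of_lt ?_ h7
      have hsub : ({s, s'} : Finset S) ⊆ Jᶜ := by
        intro t ht
        rw [Finset.mem_insert, Finset.mem_singleton] at ht
        rw [Finset.mem_compl]
        rcases ht with rfl | rfl
        · exact h1
        · exact h2
      have h8 := Finset.sum_le_sum_of_subset_of_nonneg
        (f := fun t => av H J x (fun y => ind (Fat H f K η (insert t J) y))) hsub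
        (fun t _ _ => av_nonneg H J x _ fun y => ind_nonneg _)
      rw [Finset.sum_pair h3] at h8
      exact h8
    generalize av H J x (fun y => ind (Fat H f K η (insert s J) y)) = a at *
    generalize av H J x (fun y => ind (Fat H f K η (insert s' J) y)) = b at *
    have h9 : Real.sqrt (a * b) ≤ a + b := by
      rw [Real.sqrt_le_left (by linarith)]
      nlinarith [mul_nonneg ha hb]
    have h10 : lam * Real.sqrt (a * b) ≤ lam * (a + b) := mul_le_mul_of_nonneg_left h9 hl
    have h11 : a * b ≤ η J.card * (a + b) := by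
      have : a * b ≤ η J.card * b := mul_le_mul_of_nonneg_right (by linarith) hb
      nlinarith [mul_nonneg hη0.le ha]
    linarith

/-- double counting of the pairs (J, s) -/
private theorem sum_insert_double (j : ℕ) (F : Finset S → ℝ) :
    ∑ J ∈ (Finset.univ : Finset S).powersetCard j, ∑ s ∈ Jᶜ, F (insert s J) =
      (j + 1) * ∑ I ∈ (Finset.univ : Finset S).powersetCard (j + 1), F I := by
  have h1 : ((j : ℝ) + 1) * ∑ I ∈ (Finset.univ : Finset S).powersetCard (j + 1), F I =
      ∑ I ∈ (Finset.univ : Finset S).powersetCard (j + 1), ∑ _s ∈ I, F I := by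
    rw [Finset.mul_sum]
    refine Finset.sum_congr rfl fun I hI => ?_
    rw [Finset.sum_const, (Finset.mem_powersetCard.1 hI).2, nsmul_eq_mul]
    push_cast
    ring
  rw [h1, Finset.sum_sigma', Finset.sum_sigma']
  refine Finset.sum_nbij' (fun p => ⟨insert p.2 p.1, p.2⟩) (fun p => ⟨p.1.erase p.2, p.2⟩)
    ?_ ?_ ?_ ?_ ?_
  · rintro ⟨J, s⟩ hp
    simp only [Finset.mem_sigma, Finset.mem_powersetCard, Finset.mem_compl] at hp ⊢
    refine ⟨⟨Finset.subset_univ _, ?_⟩, Finset.mem_insert_self _ _⟩
    rw [Finset.card_insert_of_notMem hp.2, hp.1.2]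
  · rintro ⟨I, s⟩ hp
    simp only [Finset.mem_sigma, Finset.mem_powersetCard, Finset.mem_compl] at hp ⊢
    refine ⟨⟨Finset.subset_univ _, ?_⟩, Finset.notMem_erase _ _⟩
    rw [Finset.card_erase_of_mem hp.2, hp.1.2]
    omega
  · rintro ⟨J, s⟩ hp
    simp only [Finset.mem_sigma, Finset.mem_powersetCard, Finset.mem_compl] at hp
    simp only [Finset.erase_insert hp.2]
  · rintro ⟨I, s⟩ hp
    simp only [Finset.mem_sigma, Finset.mem_powersetCard] at hp
    simp only [Finset.insert_erase hp.2]
  · rintro ⟨J, s⟩ _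
    rfl

theorem totBad_le (hf : InvL H ∅ K f) (hη : ∀ j, 0 < η j) (lam : ℝ) (hl : 0 ≤ lam)
    (hs : Spec H lam) :
    totBad H f K η ≤ ∑ j ∈ Finset.range K,
      (η j + lam) * (2 * Fintype.card S * (j + 1)) * mass H f K η (j + 1) := by
  unfold totBad
  refine Finset.sum_le_sum fun j hj => ?_
  have hjK := Finset.mem_range.1 hj
  have hc : 0 ≤ η j + lam := by linarith [hη j]
  have hA : ∀ I : Finset S, 0 ≤ Ex (fun x => ind (Fat H f K η I x)) := fun I =>
    Ex_nonneg _ fun _ => ind_nonneg _
  have step : ∀ J ∈ (Finset.univ : Finset S).powersetCard j,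
      ∑ s ∈ Jᶜ, ∑ s' ∈ Jᶜ.erase s, Ex (fun x => ind (Bad H f K η J s s' x)) ≤
      (η j + lam) * (2 * Fintype.card S) *
        ∑ s ∈ Jᶜ, Ex (fun x => ind (Fat H f K η (insert s J) x)) := by
    intro J hJ
    have hJc := (Finset.mem_powersetCard.1 hJ).2
    have h1 : ∀ s ∈ Jᶜ, ∑ s' ∈ Jᶜ.erase s, Ex (fun x => ind (Bad H f K η J s s' x)) ≤
        (η j + lam) * (Fintype.card S * Ex (fun x => ind (Fat H f K η (insert s J) x)) +
          ∑ s' ∈ Jᶜ, Ex (fun x => ind (Fat H f K η (insert s' J) x))) := by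
      intro s hs1
      have h2 : ∀ s' ∈ Jᶜ.erase s, Ex (fun x => ind (Bad H f K η J s s' x)) ≤
          (η j + lam) * (Ex (fun x => ind (Fat H f K η (insert s J) x)) +
            Ex (fun x => ind (Fat H f K η (insert s' J) x))) := by
        intro s' hs2
        rw [Finset.mem_erase, Finset.mem_compl] at hs2
        have := bad_le H f K η hf hη lam hl hs J s s' (Finset.mem_compl.1 hs1) hs2.2
          (Ne.symm hs2.1) (by rw [hJc]; exact hjK)
        rwa [hJc] at this
      refine (Finset.sum_le_sum h2).trans ?_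
      rw [← Finset.mul_sum, Finset.sum_add_distrib, Finset.sum_const, nsmul_eq_mul]
      refine mul_le_mul_of_nonneg_left ?_ hc
      have h3 : ((Jᶜ.erase s).card : ℝ) ≤ Fintype.card S := by
        exact_mod_cast Finset.card_le_univ _
      have h4 := mul_le_mul_of_nonneg_right h3 (hA (insert s J))
      have h5 : ∑ s' ∈ Jᶜ.erase s, Ex (fun x => ind (Fat H f K η (insert s' J) x)) ≤
          ∑ s' ∈ Jᶜ, Ex (fun x => ind (Fat H f K η (insert s' J) x)) :=
        Finset.sum_le_sum_of_subset_of_nonneg (Finset.erase_subset _ _)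
          (fun t _ _ => hA (insert t J))
      linarith
    refine (Finset.sum_le_sum h1).trans ?_
    rw [← Finset.mul_sum, Finset.sum_add_distrib, Finset.sum_const, nsmul_eq_mul,
      ← Finset.mul_sum, mul_assoc]
    refine mul_le_mul_of_nonneg_left ?_ hc
    have h6 : 0 ≤ ∑ s ∈ Jᶜ, Ex (fun x => ind (Fat H f K η (insert s J) x)) :=
      Finset.sum_nonneg fun t _ => hA (insert t J)
    have h7 : ((Jᶜ).card : ℝ) ≤ Fintype.card S := by
      exact_mod_cast Finset.card_le_univ _
    have h8 := mul_le_mul_of_nonneg_right h7 h6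
    linarith
  refine (Finset.sum_le_sum step).trans (le_of_eq ?_)
  rw [← Finset.mul_sum, sum_insert_double j (fun I => Ex (fun x => ind (Fat H f K η I x)))]
  unfold mass
  ring

/-- the probability that some bad event happens inside `ρ` is at most the total measure -/
theorem bad_inside_le (ρ : Finset S) (hρ : ρ.card ≤ K + 1) :
    Ex (fun x => ind (∃ J ⊆ ρ, ∃ s s' : S, s ∈ ρ ∧ s ∉ J ∧ s' ∈ ρ ∧ s' ∉ J ∧ s ≠ s' ∧
      Bad H f K η J s s' x)) ≤ totBad H f K η := by
  have h1 : totBad H f K η = Ex (fun x => ∑ j ∈ Finset.range K,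
      ∑ J ∈ (Finset.univ : Finset S).powersetCard j, ∑ s ∈ Jᶜ,
        ∑ s' ∈ Jᶜ.erase s, ind (Bad H f K η J s s' x)) := by
    unfold totBad
    rw [Ex_sum]
    refine Finset.sum_congr rfl fun j _ => ?_
    rw [Ex_sum]
    refine Finset.sum_congr rfl fun J _ => ?_
    rw [Ex_sum]
    refine Finset.sum_congr rfl fun s _ => ?_
    rw [Ex_sum]
  rw [h1]
  refine Ex_mono _ _ fun x => ?_
  have hn : ∀ (J : Finset S) (s s' : S), 0 ≤ ind (Bad H f K η J s s' x) := fun _ _ _ =>
    ind_nonneg _
  by_cases hE : ∃ J ⊆ ρ, ∃ s s' : S, s ∈ ρ ∧ s ∉ J ∧ s' ∈ ρ ∧ s' ∉ J ∧ s ≠ s' ∧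
      Bad H f K η J s s' x
  · have e0 : ind (∃ J ⊆ ρ, ∃ s s' : S, s ∈ ρ ∧ s ∉ J ∧ s' ∈ ρ ∧ s' ∉ J ∧ s ≠ s' ∧
        Bad H f K η J s s' x) = 1 := by
      unfold ind
      rw [if_pos hE]
    rw [e0]
    obtain ⟨J, hJρ, s, s', hs, hsJ, hs', hs'J, hne, hB⟩ := hE
    have hcard : J.card + 2 ≤ ρ.card := by
      have h2 : insert s (insert s' J) ⊆ ρ := by
        intro t ht
        rw [Finset.mem_insert, Finset.mem_insert] at ht
        rcases ht with rfl | rfl | ht
        · exact hs
        · exact hs'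
        · exact hJρ ht
      have h3 := Finset.card_le_card h2
      rw [Finset.card_insert_of_notMem, Finset.card_insert_of_notMem hs'J] at h3
      · omega
      · rw [Finset.mem_insert]
        rintro (h | h)
        · exact hne h
        · exact hsJ h
    have hjK : J.card ∈ Finset.range K := by
      rw [Finset.mem_range]; omega
    have eB : ind (Bad H f K η J s s' x) = 1 := by
      unfold ind
      rw [if_pos hB]
    calc (1 : ℝ) = ind (Bad H f K η J s s' x) := eB.symm
      _ ≤ ∑ s' ∈ Jᶜ.erase s, ind (Bad H f K η J s s' x) :=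
          Finset.single_le_sum (f := fun t => ind (Bad H f K η J s t x)) (fun t _ => hn J s t)
            (Finset.mem_erase.2 ⟨hne.symm, Finset.mem_compl.2 hs'J⟩)
      _ ≤ ∑ s ∈ Jᶜ, ∑ s' ∈ Jᶜ.erase s, ind (Bad H f K η J s s' x) :=
          Finset.single_le_sum (f := fun u => ∑ t ∈ Jᶜ.erase u, ind (Bad H f K η J u t x))
            (fun u _ => Finset.sum_nonneg fun t _ => hn J u t) (Finset.mem_compl.2 hsJ)
      _ ≤ ∑ J ∈ (Finset.univ : Finset S).powersetCard J.card, ∑ s ∈ Jᶜ,
            ∑ s' ∈ Jᶜ.erase s, ind (Bad H f K η J s s' x) :=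
          Finset.single_le_sum (f := fun I => ∑ u ∈ Iᶜ, ∑ t ∈ Iᶜ.erase u,
            ind (Bad H f K η I u t x))
            (fun I _ => Finset.sum_nonneg fun u _ => Finset.sum_nonneg fun t _ => hn I u t)
            (Finset.mem_powersetCard.2 ⟨Finset.subset_univ _, rfl⟩)
      _ ≤ _ :=
          Finset.single_le_sum (f := fun i => ∑ I ∈ (Finset.univ : Finset S).powersetCard i,
            ∑ u ∈ Iᶜ, ∑ t ∈ Iᶜ.erase u, ind (Bad H f K η I u t x))
            (fun i _ => Finset.sum_nonneg fun I _ => Finset.sum_nonneg fun u _ =>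
              Finset.sum_nonneg fun t _ => hn I u t) hjK
  · have e0 : ind (∃ J ⊆ ρ, ∃ s s' : S, s ∈ ρ ∧ s ∉ J ∧ s' ∈ ρ ∧ s' ∉ J ∧ s ≠ s' ∧
        Bad H f K η J s s' x) = 0 := by
      unfold ind
      rw [if_neg hE]
    rw [e0]
    exact Finset.sum_nonneg fun i _ => Finset.sum_nonneg fun I _ => Finset.sum_nonneg fun u _ =>
      Finset.sum_nonneg fun t _ => hn I u t

end Vale.P067.PA
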