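import Vale.Agent.Lib.P067.Defs

/-!
# P067 part A: definitions

Proof text: notes/P067/PROOF_A.md.  `Ex` average over the finite group, `lk` restriction of a cochain to the
links, `Fat` the fat faces (predicate A of the text), `Bad` the bad event, `mass` the total measure of the fat
faces with `j` vertices, `totBad` the total measure of the bad events, `LocMin` local minimality, `Reach`
chains of members of a family, `Term` terminal faces, `gs` the subcochain `g_σ`, `lift` the lift `b↑`,
`cnt`, `cntL` the number of pairs in the support.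
-/

namespace Vale.P067.PA

open scoped Classical

/-- indicator -/
noncomputable def ind (p : Prop) : ℝ := if p then 1 else 0

/-- chains of members of `A` from `κ` down to `σ`, removing one element at a time -/
inductive Reach {S : Type*} (A : Finset S → Prop) (σ : Finset S) : Finset S → Prop
  | refl : A σ → Reach A σ σ
  | step (κ : Finset S) (s : S) : A κ → s ∈ κ → Reach A σ (κ.erase s) → Reach A σ κ

/-- average over the group -/
noncomputable def Ex {G : Type*} (φ : G → ℝ) : ℝ := (∑ᶠ x : G, φ x) / Nat.card G

section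
variable {S : Type*} [Fintype S] {G : Type*} [Group G]

/-- the restriction of a cochain to the links of the faces of type `J0` -/
noncomputable def lk (f : Finset S → G → ZMod 2) (J0 : Finset S) : Finset S → G → ZMod 2 :=
  fun J x => f (J0 ∪ J) x

/-- auxiliary for `Fat` (recursion on the number of missing vertices) -/
noncomputable def fatAux (H : S → Subgroup G) (f : Finset S → G → ZMod 2) (η : ℕ → ℝ) :
    ℕ → Finset S → G → Prop
  | 0, J, x => f J x ≠ 0
  | m + 1, J, x => η J.card ≤ ∑ s ∈ Jᶜ, av H J x (fun y => ind (fatAux H f η m (insert s J) y))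

/-- fat faces: for `K` vertices the support of `f`; for fewer vertices those for which the sum over the types
`s` of the proportion of fat faces above is at least `η` -/
def Fat (H : S → Subgroup G) (f : Finset S → G → ZMod 2) (K : ℕ) (η : ℕ → ℝ)
    (J : Finset S) (x : G) : Prop :=
  J.card ≤ K ∧ fatAux H f η (K - J.card) J x

/-- bad event at the chamber `x` -/
def Bad (H : S → Subgroup G) (f : Finset S → G → ZMod 2) (K : ℕ) (η : ℕ → ℝ)
    (J : Finset S) (s s' : S) (x : G) : Prop :=
  Fat H f K η (insert s J) x ∧ Fat H f K η (insert s' J) x ∧ ¬ Fat H f K η J x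

/-- total measure of the fat faces with `j` vertices -/
noncomputable def mass (H : S → Subgroup G) (f : Finset S → G → ZMod 2) (K : ℕ) (η : ℕ → ℝ)
    (j : ℕ) : ℝ :=
  ∑ J ∈ (Finset.univ : Finset S).powersetCard j, Ex (fun x => ind (Fat H f K η J x))

/-- total measure of the bad events -/
noncomputable def totBad (H : S → Subgroup G) (f : Finset S → G → ZMod 2) (K : ℕ)
    (η : ℕ → ℝ) : ℝ :=
  ∑ j ∈ Finset.range K, ∑ J ∈ (Finset.univ : Finset S).powersetCard j, ∑ s ∈ Jᶜ,
    ∑ s' ∈ Jᶜ.erase s, Ex (fun x => ind (Bad H f K η J s s' x))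

/-- local minimality of a cochain on faces with `K` vertices -/
def LocMin (H : S → Subgroup G) (K : ℕ) (f : Finset S → G → ZMod 2) : Prop :=
  ∀ J0 : Finset S, J0.Nonempty → J0.card < K → ∀ x : G, ∀ b : Finset S → G → ZMod 2,
    InvL H J0 (K - J0.card - 1) b →
    nm H J0 x (K - J0.card) (lk f J0) ≤ nm H J0 x (K - J0.card) (lk f J0 + dl b)

/-- terminal faces -/
def Term (H : S → Subgroup G) (f : Finset S → G → ZMod 2) (K : ℕ) (η : ℕ → ℝ)
    (σ : Finset S) (x : G) : Prop :=
  Fat H f K η σ x ∧ ∀ v ∈ σ, ¬ Fat H f K η (σ.erase v) x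

/-- condition defining the subcochain `gs` -/
def Wg (H : S → Subgroup G) (f : Finset S → G → ZMod 2) (K : ℕ) (η : ℕ → ℝ)
    (σ J : Finset S) (y : G) : Prop :=
  Term H f K η σ y ∧ Reach (fun κ => Fat H f K η κ y) σ (σ ∪ J)

/-- the subcochain `g_σ` belonging to the terminal faces of type `σ`, on the links of type `σ` -/
noncomputable def gs (H : S → Subgroup G) (f : Finset S → G → ZMod 2) (K : ℕ) (η : ℕ → ℝ)
    (σ : Finset S) : Finset S → G → ZMod 2 :=
  fun J y => if Wg H f K η σ J y then f (σ ∪ J) y else 0

/-- lift of a cochain from the link of `(J0, x0)` -/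
noncomputable def lift (H : S → Subgroup G) (J0 : Finset S) (x0 : G)
    (b : Finset S → G → ZMod 2) : Finset S → G → ZMod 2 :=
  fun J y => if J0 ⊆ J ∧ x0⁻¹ * y ∈ HH H J0 then b (J \ J0) y else 0

/-- size of the support on faces with `K` vertices, counted in chambers -/
noncomputable def cnt (K : ℕ) (f : Finset S → G → ZMod 2) : ℕ :=
  ∑ J ∈ (Finset.univ : Finset S).powersetCard K, Nat.card {y : G // f J y ≠ 0}

/-- size of the support on the link of `(J0, x0)`, faces with `i` vertices -/
noncomputable def cntL (H : S → Subgroup G) (J0 : Finset S) (x0 : G) (i : ℕ)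
    (f : Finset S → G → ZMod 2) : ℕ :=
  ∑ J ∈ (J0ᶜ).powersetCard i, Nat.card {h : HH H J0 // f J (x0 * h) ≠ 0}

end

end Vale.P067.PA
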