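import Vale.Agent.Lib.P067.A.Basic

/-!
# P067 part A, module Comb: the local combinatorial lemma (section A1 of the text)

`reach_all`: if `v = u` trivial.  Otherwise put `κ0 = ρ \ u`; from `A (ρ \ v)` and `A (ρ \ u)` the good property
for `J = ρ \ {u, v}` gives `A (κ0 \ v)`.  Claim, by induction on the derivation of `Reach A σ κ`: if
`κ ⊆ ρ`, `v ∈ κ` and `A (κ \ v)` then `v ∉ σ` and `Reach A σ (κ \ v)`.  For `refl`: `v ∈ σ` and `A (σ \ v)`
contradict terminality.  For `step κ s`: if `s = v` then `Reach A σ (κ \ v)` is the hypothesis (and `v ∉ σ` since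
`σ ⊆ κ \ v`); if `s ≠ v` then `v ∈ κ \ s`, and `A ((κ \ s) \ v)` by the good property with `J = κ \ {s, v}` from
`A (κ \ v)` (`J ∪ s`) and `A (κ \ s)` (`J ∪ v`); the induction hypothesis gives `Reach A σ ((κ \ s) \ v)`, then
`step` with `κ \ v`.  Finally `step` from `ρ \ v` (removing `u`) to `κ0 \ v`.
-/

namespace Vale.P067.PA

open scoped Classical

variable {S : Type*}

theorem Reach.left {A : Finset S → Prop} {σ κ : Finset S} (h : Reach A σ κ) : A σ := by
  induction h with
  | refl h => exact h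
  | step _ _ _ _ _ ih => exact ih

theorem Reach.right {A : Finset S → Prop} {σ κ : Finset S} (h : Reach A σ κ) : A κ := by
  cases h with
  | refl h => exact h
  | step _ _ h _ _ => exact h

theorem Reach.subset {A : Finset S → Prop} {σ κ : Finset S} (h : Reach A σ κ) : σ ⊆ κ := by
  induction h with
  | refl h => exact Finset.Subset.refl _
  | step κ s _ _ _ ih => exact ih.trans (Finset.erase_subset _ _)

/-- `Reach` only depends on the members between `σ` and `κ` -/
theorem Reach.congr {A B : Finset S → Prop} {σ κ : Finset S} (h : Reach A σ κ)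
    (hAB : ∀ τ, σ ⊆ τ → τ ⊆ κ → A τ → B τ) : Reach B σ κ := by
  induction h with
  | refl h => exact Reach.refl (hAB σ (Finset.Subset.refl _) (Finset.Subset.refl _) h)
  | step κ s hκ hs hr ih =>
    refine Reach.step κ s (hAB κ ?_ (Finset.Subset.refl _) hκ) hs (ih ?_)
    · exact hr.subset.trans (Finset.erase_subset _ _)
    · intro τ h1 h2 h3
      exact hAB τ h1 (h2.trans (Finset.erase_subset _ _)) h3

/-- going down as long as possible -/
theorem exists_term (A : Finset S → Prop) (κ : Finset S) (h : A κ) :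
    ∃ σ : Finset S, Reach A σ κ ∧ ∀ v ∈ σ, ¬ A (σ.erase v) := by
  induction hn : κ.card generalizing κ with
  | zero =>
    refine ⟨κ, Reach.refl h, ?_⟩
    intro v hv
    rw [Finset.card_eq_zero] at hn
    rw [hn] at hv
    simp at hv
  | succ n ih =>
    by_cases hc : ∀ v ∈ κ, ¬ A (κ.erase v)
    · exact ⟨κ, Reach.refl h, hc⟩
    · push Not at hc
      obtain ⟨v, hv, hAv⟩ := hc
      obtain ⟨σ, h1, h2⟩ := ih (κ.erase v) hAv (by rw [Finset.card_erase_of_mem hv]; omega)
      exact ⟨σ, Reach.step κ v h hv h1, h2⟩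

theorem reach_all (A : Finset S → Prop) (ρ σ : Finset S)
    (hgood : ∀ J ⊆ ρ, ∀ s s' : S, s ∈ ρ → s ∉ J → s' ∈ ρ → s' ∉ J → s ≠ s' →
      A (insert s J) → A (insert s' J) → A J)
    (hterm : ∀ v ∈ σ, ¬ A (σ.erase v)) (u v : S) (hu : u ∈ ρ) (hv : v ∈ ρ)
    (h0 : Reach A σ (ρ.erase u)) (hA : A (ρ.erase v)) :
    v ∉ σ ∧ Reach A σ (ρ.erase v) := by
  have key : ∀ κ, κ ⊆ ρ → ∀ s ∈ κ, v ∈ κ → s ≠ v → A (κ.erase s) → A (κ.erase v) →
      A ((κ.erase s).erase v) := by
    intro κ hκ s hs hvκ hsv h1 h2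
    refine hgood ((κ.erase s).erase v) ?_ s v (hκ hs) ?_ (hκ hvκ) ?_ hsv ?_ ?_
    · exact ((Finset.erase_subset _ _).trans (Finset.erase_subset _ _)).trans hκ
    · simp
    · simp
    · rw [Finset.erase_right_comm, Finset.insert_erase (Finset.mem_erase.2 ⟨hsv, hs⟩)]
      exact h2
    · rw [Finset.insert_erase (Finset.mem_erase.2 ⟨fun h => hsv h.symm, hvκ⟩)]
      exact h1
  have claim : ∀ κ, Reach A σ κ → κ ⊆ ρ → v ∈ κ → A (κ.erase v) →
      v ∉ σ ∧ Reach A σ (κ.erase v) := by
    intro κ hκ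
    induction hκ with
    | refl h =>
      intro _ hvσ h1
      exact absurd h1 (hterm v hvσ)
    | step κ s hκA hs hr ih =>
      intro hsub hvκ h1
      by_cases hsv : s = v
      · subst hsv
        refine ⟨?_, hr⟩
        intro hc
        have := hr.subset hc
        simp at this
      · have h2 : v ∈ κ.erase s := Finset.mem_erase.2 ⟨fun h => hsv h.symm, hvκ⟩
        have h3 := key κ hsub s hs hvκ hsv hr.right h1
        obtain ⟨h4, h5⟩ := ih ((Finset.erase_subset _ _).trans hsub) h2 h3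
        refine ⟨h4, Reach.step (κ.erase v) s h1 (Finset.mem_erase.2 ⟨hsv, hs⟩) ?_⟩
        rw [Finset.erase_right_comm]
        exact h5
  by_cases huv : u = v
  · subst huv
    refine ⟨?_, h0⟩
    intro hc
    have := h0.subset hc
    simp at this
  · have h1 := key ρ (Finset.Subset.refl _) u hu hv huv h0.right hA
    obtain ⟨h2, h3⟩ := claim (ρ.erase u) h0 (Finset.erase_subset _ _)
      (Finset.mem_erase.2 ⟨fun h => huv h.symm, hv⟩) h1
    refine ⟨h2, Reach.step (ρ.erase v) u hA (Finset.mem_erase.2 ⟨huv, hu⟩) ?_⟩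
    rw [Finset.erase_right_comm]
    exact h3

end Vale.P067.PA
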