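import Mathlib

/-!
# P067 part A, module Const: choice of the thresholds

Choose `η (K-1), η (K-2), …, η 0` successively: the product over `Ico (j+1) K` only depends on the `η l` with
`l > j`, so `η j` can be taken so small that its own term is at most `e / (2 K)`; then `lam` small.
(For instance by induction on `m`: there is `η` positive with the sum over `j ∈ Ico (K-m) K` of
`η j (2 n (j+1)) ∏ ...` at most `e/2 · m/K`, changing only the value at `K - (m+1)` in each step.)
-/

namespace Vale.P067.PA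

private theorem consts_aux (n K : ℕ) (e : ℝ) (he : 0 < e) (m : ℕ) (hm : m ≤ K) :
    ∃ η : ℕ → ℝ, (∀ j, 0 < η j) ∧ ∀ j ∈ Finset.Ico (K - m) K, η j * (2 * n * (j + 1)) *
      ∏ l ∈ Finset.Ico (j + 1) K, (((l : ℝ) + 1) / η l) ≤ e := by
  induction m with
  | zero => exact ⟨fun _ => 1, fun _ => one_pos, fun j hj => by simp at hj⟩
  | succ m ih =>
    obtain ⟨η, hη, h⟩ := ih (by omega)
    set j0 := K - (m + 1) with hj0
    set P : ℝ := (2 * n * ((j0 : ℝ) + 1)) *
      ∏ l ∈ Finset.Ico (j0 + 1) K, (((l : ℝ) + 1) / η l) with hP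
    have hP0 : 0 ≤ P := by
      refine mul_nonneg (by positivity) (Finset.prod_nonneg fun l _ => ?_)
      exact div_nonneg (by positivity) (hη l).le
    refine ⟨Function.update η j0 (e / (P + 1)), fun j => ?_, fun j hj => ?_⟩
    · by_cases hj : j = j0
      · rw [hj, Function.update_self]
        positivity
      · rw [Function.update_of_ne hj]
        exact hη j
    · have hprod : ∀ j, j0 ≤ j → ∏ l ∈ Finset.Ico (j + 1) K,
          (((l : ℝ) + 1) / Function.update η j0 (e / (P + 1)) l) =
          ∏ l ∈ Finset.Ico (j + 1) K, (((l : ℝ) + 1) / η l) := by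
        intro j hj
        refine Finset.prod_congr rfl fun l hl => ?_
        rw [Finset.mem_Ico] at hl
        rw [Function.update_of_ne (by omega)]
      rw [Finset.mem_Ico] at hj
      rw [hprod j hj.1]
      by_cases hjj : j = j0
      · rw [hjj, Function.update_self, mul_assoc, ← hP, div_mul_eq_mul_div,
          div_le_iff₀ (by positivity)]
        nlinarith
      · rw [Function.update_of_ne hjj]
        exact h j (Finset.mem_Ico.mpr ⟨by omega, hj.2⟩)

theorem exists_consts (n K : ℕ) (e : ℝ) (he : 0 < e) :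
    ∃ (η : ℕ → ℝ) (lam : ℝ), (∀ j, 0 < η j) ∧ 0 < lam ∧
      ∑ j ∈ Finset.range K, (η j + lam) * (2 * n * (j + 1)) *
        ∏ l ∈ Finset.Ico (j + 1) K, (((l : ℝ) + 1) / η l) ≤ e := by
  obtain ⟨η, hη, h⟩ := consts_aux n K (e / (2 * (K + 1))) (by positivity) K le_rfl
  set S : ℝ := ∑ j ∈ Finset.range K, (2 * n * ((j : ℝ) + 1)) *
    ∏ l ∈ Finset.Ico (j + 1) K, (((l : ℝ) + 1) / η l) with hS
  have hS0 : 0 ≤ S := by
    refine Finset.sum_nonneg fun j _ => mul_nonneg (by positivity)
      (Finset.prod_nonneg fun l _ => ?_)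
    exact div_nonneg (by positivity) (hη l).le
  refine ⟨η, e / (2 * (S + 1)), hη, by positivity, ?_⟩
  have h1 : ∑ j ∈ Finset.range K, (η j + e / (2 * (S + 1))) * (2 * n * (j + 1)) *
        ∏ l ∈ Finset.Ico (j + 1) K, (((l : ℝ) + 1) / η l) =
      (∑ j ∈ Finset.range K, η j * (2 * n * (j + 1)) *
        ∏ l ∈ Finset.Ico (j + 1) K, (((l : ℝ) + 1) / η l)) + e / (2 * (S + 1)) * S := by
    rw [hS, Finset.mul_sum, ← Finset.sum_add_distrib]
    refine Finset.sum_congr rfl fun j _ => ?_
    ring
  have h2 : ∑ j ∈ Finset.range K, η j * (2 * n * (j + 1)) *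
        ∏ l ∈ Finset.Ico (j + 1) K, (((l : ℝ) + 1) / η l) ≤ K * (e / (2 * (K + 1))) := by
    refine (Finset.sum_le_card_nsmul _ _ (e / (2 * (K + 1))) fun j hj => ?_).trans (le_of_eq ?_)
    · refine h j (Finset.mem_Ico.mpr ⟨by omega, Finset.mem_range.mp hj⟩)
    · rw [Finset.card_range, nsmul_eq_mul]
  have h3 : (K : ℝ) * (e / (2 * (K + 1))) ≤ e / 2 := by
    rw [← mul_div_assoc, div_le_div_iff₀ (by positivity) (by positivity)]
    nlinarith
  have h4 : e / (2 * (S + 1)) * S ≤ e / 2 := by
    rw [div_mul_eq_mul_div, div_le_div_iff₀ (by positivity) (by positivity)]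
    nlinarith
  rw [h1]
  linarith

end Vale.P067.PA
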