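import Vale.Agent.Lib.P067.A.Nm

/-!
# P067 part A, module Fat: the fat faces (section A2 of the text)

`fat_lt`: for `J.card < K`, `K - J.card = (K - (J.card + 1)) + 1`, and for `s ∉ J` the set `insert s J` has
`J.card + 1` elements.  `fat_inv`: descending induction on `J.card` is not needed: for `J.card = K` it is `InvL`,
for `J.card < K` it is `av_inv`.  `mass_step`: `η j * ind (Fat J x) ≤ ∑ s ∈ Jᶜ, av ...`, take `Ex` (`Ex_av`); every
set with `j + 1` elements is `insert s J` for `j + 1` pairs `(J, s)`.  `mass_le`: descending induction.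
`not_fat_empty`: the sum for `J = ∅` is `mass 1` (`av_empty`).
-/

namespace Vale.P067.PA

open scoped Classical

variable {S : Type*} [Fintype S] {G : Type*} [Group G] (H : S → Subgroup G)
  (f : Finset S → G → ZMod 2) (K : ℕ) (η : ℕ → ℝ)

theorem fat_top (J : Finset S) (x : G) (hJ : J.card = K) : Fat H f K η J x ↔ f J x ≠ 0 := by
  unfold Fat
  rw [hJ, Nat.sub_self]
  simp only [fatAux, le_refl, true_and]

theorem fat_lt (J : Finset S) (x : G) (hJ : J.card < K) :
    Fat H f K η J x ↔
      η J.card ≤ ∑ s ∈ Jᶜ, av H J x (fun y => ind (Fat H f K η (insert s J) y)) := by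
  have h1 : K - J.card = (K - (J.card + 1)) + 1 := by omega
  have h2 : ∀ s ∈ Jᶜ, ∀ y, (Fat H f K η (insert s J) y
      ↔ fatAux H f η (K - (J.card + 1)) (insert s J) y) := by
    intro s hs y
    have hc : (insert s J).card = J.card + 1 :=
      Finset.card_insert_of_notMem (Finset.mem_compl.mp hs)
    unfold Fat
    rw [hc]
    exact ⟨fun h => h.2, fun h => ⟨by omega, h⟩⟩
  have h3 : ∑ s ∈ Jᶜ, av H J x (fun y => ind (Fat H f K η (insert s J) y))
      = ∑ s ∈ Jᶜ, av H J x (fun y => ind (fatAux H f η (K - (J.card + 1)) (insert s J) y)) := by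
    refine Finset.sum_congr rfl fun s hs => ?_
    congr 1
    funext y
    congr 1
    exact propext (h2 s hs y)
  rw [h3]
  unfold Fat
  rw [h1]
  simp only [fatAux]
  exact ⟨fun h => h.2, fun h => ⟨hJ.le, h⟩⟩

theorem not_fat (J : Finset S) (x : G) (hJ : K < J.card) : ¬ Fat H f K η J x := by
  intro h
  exact absurd h.1 (not_le.mpr hJ)

variable [Finite G]

theorem fat_inv (hf : InvL H ∅ K f) (J : Finset S) (x h : G) (hh : h ∈ HH H J) :
    Fat H f K η J (x * h) ↔ Fat H f K η J x := by
  rcases lt_trichotomy J.card K with hJ | hJ | hJ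
  · rw [fat_lt H f K η J _ hJ, fat_lt H f K η J _ hJ]
    have : ∑ s ∈ Jᶜ, av H J (x * h) (fun y => ind (Fat H f K η (insert s J) y))
        = ∑ s ∈ Jᶜ, av H J x (fun y => ind (Fat H f K η (insert s J) y)) :=
      Finset.sum_congr rfl fun s _ => av_inv H J x _ h hh
    rw [this]
  · rw [fat_top H f K η J _ hJ, fat_top H f K η J _ hJ]
    rw [hf J (Finset.disjoint_empty_right J) hJ x h (by rwa [Finset.empty_union])]
  · exact ⟨fun h1 => absurd h1 (not_fat H f K η J _ hJ),
      fun h1 => absurd h1 (not_fat H f K η J _ hJ)⟩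

theorem mass_top (x : G) : mass H f K η K = nm H ∅ x K f := by
  rw [nm_empty]
  unfold mass
  refine Finset.sum_congr rfl fun J hJ => ?_
  congr 1
  funext y
  congr 1
  exact propext (fat_top H f K η J y (Finset.mem_powersetCard.mp hJ).2)

theorem mass_nonneg (j : ℕ) : 0 ≤ mass H f K η j := by
  unfold mass
  exact Finset.sum_nonneg fun J _ => Ex_nonneg _ fun y => ind_nonneg _

private theorem sum_insert_pairs (j : ℕ) (w : Finset S → ℝ) :
    ∑ J ∈ (Finset.univ : Finset S).powersetCard j, ∑ s ∈ Jᶜ, w (insert s J)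
      = ∑ J' ∈ (Finset.univ : Finset S).powersetCard (j + 1), ((j : ℝ) + 1) * w J' := by
  have h1 : ∀ J' ∈ (Finset.univ : Finset S).powersetCard (j + 1),
      ((j : ℝ) + 1) * w J' = ∑ _s ∈ J', w J' := by
    intro J' hJ'
    rw [Finset.sum_const, (Finset.mem_powersetCard.mp hJ').2, nsmul_eq_mul]
    push_cast
    ring
  rw [Finset.sum_congr rfl h1, Finset.sum_sigma', Finset.sum_sigma']
  refine Finset.sum_bij' (fun p _ => ⟨insert p.2 p.1, p.2⟩) (fun p _ => ⟨p.1.erase p.2, p.2⟩)
    ?_ ?_ ?_ ?_ ?_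
  · rintro ⟨J, s⟩ hp
    simp only [Finset.mem_sigma, Finset.mem_powersetCard, Finset.mem_compl] at hp ⊢
    exact ⟨⟨Finset.subset_univ _, by rw [Finset.card_insert_of_notMem hp.2, hp.1.2]⟩,
      Finset.mem_insert_self _ _⟩
  · rintro ⟨J, s⟩ hp
    simp only [Finset.mem_sigma, Finset.mem_powersetCard, Finset.mem_compl] at hp ⊢
    exact ⟨⟨Finset.subset_univ _, by rw [Finset.card_erase_of_mem hp.2, hp.1.2]; rfl⟩,
      Finset.notMem_erase _ _⟩
  · rintro ⟨J, s⟩ hp
    simp only [Finset.mem_sigma, Finset.mem_powersetCard, Finset.mem_compl] at hp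
    simp only [Finset.erase_insert hp.2]
  · rintro ⟨J, s⟩ hp
    simp only [Finset.mem_sigma, Finset.mem_powersetCard] at hp
    simp only [Finset.insert_erase hp.2]
  · rintro ⟨J, s⟩ _
    rfl

theorem mass_step (j : ℕ) (hj : j < K) :
    η j * mass H f K η j ≤ (j + 1) * mass H f K η (j + 1) := by
  have h1 : η j * mass H f K η j
      = ∑ J ∈ (Finset.univ : Finset S).powersetCard j,
        Ex (fun x => η j * ind (Fat H f K η J x)) := by
    unfold mass
    rw [Finset.mul_sum]
    exact Finset.sum_congr rfl fun J _ => (Ex_const_mul _ _).symm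
  have h2 : ∀ J ∈ (Finset.univ : Finset S).powersetCard j,
      Ex (fun x => η j * ind (Fat H f K η J x))
        ≤ ∑ s ∈ Jᶜ, Ex (fun y => ind (Fat H f K η (insert s J) y)) := by
    intro J hJ
    have hc : J.card = j := (Finset.mem_powersetCard.mp hJ).2
    have h3 : ∑ s ∈ Jᶜ, Ex (fun y => ind (Fat H f K η (insert s J) y))
        = Ex (fun x => ∑ s ∈ Jᶜ, av H J x (fun y => ind (Fat H f K η (insert s J) y))) := by
      rw [Ex_sum (Jᶜ) (fun s x => av H J x (fun y => ind (Fat H f K η (insert s J) y)))]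
      exact Finset.sum_congr rfl fun s _ => (Ex_av H J _).symm
    rw [h3]
    refine Ex_mono _ _ fun x => ?_
    have h4 := fat_lt H f K η J x (by rw [hc]; exact hj)
    rw [hc] at h4
    by_cases hF : Fat H f K η J x
    · have h5 := h4.mp hF
      simpa [ind, hF] using h5
    · have h6 : ind (Fat H f K η J x) = 0 := by simp [ind, hF]
      rw [h6, mul_zero]
      exact Finset.sum_nonneg fun s _ => av_nonneg H J x _ fun y => ind_nonneg _
  rw [h1]
  refine (Finset.sum_le_sum h2).trans ?_
  rw [sum_insert_pairs j (fun J => Ex (fun y => ind (Fat H f K η J y))), ← Finset.mul_sum]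
  exact le_rfl

theorem mass_le (hη : ∀ j, 0 < η j) (x : G) (j : ℕ) (hj : j ≤ K) :
    mass H f K η j ≤ (∏ l ∈ Finset.Ico j K, ((l : ℝ) + 1) / η l) * nm H ∅ x K f := by
  obtain ⟨m, hm⟩ : ∃ m, K - j = m := ⟨_, rfl⟩
  induction m generalizing j with
  | zero =>
    have hjK : j = K := by omega
    subst hjK
    rw [Finset.Ico_self, Finset.prod_empty, one_mul, mass_top]
  | succ m ih =>
    have hlt : j < K := by omega
    have h1 := ih (j + 1) hlt (by omega)
    have h2 := mass_step H f K η j hlt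
    rw [Finset.prod_eq_prod_Ico_succ_bot hlt, mul_assoc]
    have h3 : mass H f K η j ≤ (((j : ℝ) + 1) / η j) * mass H f K η (j + 1) := by
      rw [div_mul_eq_mul_div, le_div_iff₀ (hη j)]
      linarith
    refine h3.trans ?_
    have h4 : 0 ≤ ((j : ℝ) + 1) / η j := div_nonneg (by positivity) (hη j).le
    exact mul_le_mul_of_nonneg_left h1 h4

theorem not_fat_empty (hK : 1 ≤ K) (h : mass H f K η 1 < η 0) (x : G) : ¬ Fat H f K η ∅ x := by
  intro hF
  have h1 := (fat_lt H f K η ∅ x (by rw [Finset.card_empty]; omega)).mp hF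
  rw [Finset.card_empty, Finset.compl_empty] at h1
  have h2 : ∑ s ∈ (Finset.univ : Finset S), av H ∅ x (fun y => ind (Fat H f K η (insert s ∅) y))
      = mass H f K η 1 := by
    unfold mass
    rw [Finset.powersetCard_one, Finset.sum_map]
    refine Finset.sum_congr rfl fun s _ => ?_
    rw [av_empty]
    rfl
  rw [h2] at h1
  exact absurd h1 (not_le.mpr h)

end Vale.P067.PA
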