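import Vale.Agent.Lib.P067.A.Nm

/-!
# P067 part A, module Lift: one correction step (section A6 of the text)

`dl_lift`: in `∑ s ∈ J, lift (J \ s) y` the terms with `s ∈ J0` vanish (`J0 ⊄ J \ s`), for `s ∈ J \ J0` one has
`(J \ s) \ J0 = (J \ J0) \ s`; if `J0 ⊄ J` all terms vanish.
`cnt_lift`: only the types `J ⊇ J0` and the `y ∈ x0 HH H J0` change; `J ↦ J \ J0` is a bijection from the
`K`-sets containing `J0` to the `(K - J0.card)`-subsets of `J0ᶜ`, `y = x0 h`.
`cnt_lift_le`: for each of the at most `2^n` types at most `|HH H J0|` elements.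
-/

namespace Vale.P067.PA

open scoped Classical

variable {S : Type*} [Fintype S] {G : Type*} [Group G] (H : S → Subgroup G)

theorem lift_InvL (K : ℕ) (J0 : Finset S) (hc : J0.card < K) (x0 : G)
    (b : Finset S → G → ZMod 2) (hb : InvL H J0 (K - J0.card - 1) b) :
    InvL H ∅ (K - 1) (lift H J0 x0 b) := by
  intro J _ hJ x h hh
  rw [Finset.empty_union] at hh
  unfold lift
  by_cases hsub : J0 ⊆ J
  · have hh0 : h ∈ HH H J0 := HH_anti H hsub hh
    have h1 : x0⁻¹ * (x * h) ∈ HH H J0 ↔ x0⁻¹ * x ∈ HH H J0 := by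
      rw [← mul_assoc]
      exact Subgroup.mul_mem_cancel_right _ hh0
    have h2 : b (J \ J0) (x * h) = b (J \ J0) x := by
      refine hb (J \ J0) Finset.sdiff_disjoint ?_ x h ?_
      · rw [Finset.card_sdiff_of_subset hsub]; omega
      · rw [Finset.union_sdiff_of_subset hsub]; exact hh
    rw [h2]
    simp only [hsub, true_and, h1]
  · rw [if_neg (fun hc => hsub hc.1), if_neg (fun hc => hsub hc.1)]

theorem dl_lift (J0 : Finset S) (x0 : G) (b : Finset S → G → ZMod 2) (J : Finset S) (y : G) :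
    dl (lift H J0 x0 b) J y =
      if J0 ⊆ J ∧ x0⁻¹ * y ∈ HH H J0 then dl b (J \ J0) y else 0 := by
  unfold dl lift
  by_cases hP : J0 ⊆ J ∧ x0⁻¹ * y ∈ HH H J0
  · rw [if_pos hP]
    obtain ⟨hsub, hmem⟩ := hP
    rw [← Finset.sum_sdiff hsub]
    have h0 : ∑ s ∈ J0, (if J0 ⊆ J.erase s ∧ x0⁻¹ * y ∈ HH H J0 then b (J.erase s \ J0) y else 0)
        = 0 := by
      apply Finset.sum_eq_zero
      intro s hs
      rw [if_neg]
      rintro ⟨h1, _⟩
      have := h1 hs
      simp at this
    rw [h0, add_zero]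
    apply Finset.sum_congr rfl
    intro s hs
    rw [Finset.mem_sdiff] at hs
    have h1 : J0 ⊆ J.erase s := by
      intro w hw
      rw [Finset.mem_erase]
      refine ⟨?_, hsub hw⟩
      rintro rfl
      exact hs.2 hw
    rw [if_pos ⟨h1, hmem⟩]
    congr 1
    ext w
    simp only [Finset.mem_sdiff, Finset.mem_erase]
    tauto
  · rw [if_neg hP]
    apply Finset.sum_eq_zero
    intro s _
    rw [if_neg]
    rintro ⟨h1, h2⟩
    exact hP ⟨h1.trans (Finset.erase_subset _ _), h2⟩

/-- reindexing of the types containing `J0` -/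
private theorem sum_types (K : ℕ) (J0 : Finset S) (hc : J0.card < K) (N : Finset S → ℕ) :
    ∑ J ∈ (Finset.univ : Finset S).powersetCard K, (if J0 ⊆ J then N (J \ J0) else 0) =
      ∑ J ∈ (J0ᶜ).powersetCard (K - J0.card), N J := by
  rw [← Finset.sum_filter]
  refine Finset.sum_nbij' (fun J => J \ J0) (fun J => J0 ∪ J) ?_ ?_ ?_ ?_ ?_
  · intro J hJ
    rw [Finset.mem_filter, Finset.mem_powersetCard] at hJ
    rw [Finset.mem_powersetCard]
    refine ⟨?_, ?_⟩
    · intro w hw
      rw [Finset.mem_sdiff] at hw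
      rw [Finset.mem_compl]
      exact hw.2
    · rw [Finset.card_sdiff_of_subset hJ.2, hJ.1.2]
  · intro J hJ
    rw [Finset.mem_powersetCard] at hJ
    rw [Finset.mem_filter, Finset.mem_powersetCard]
    have hd : Disjoint J0 J := by
      rw [Finset.disjoint_left]
      intro w hw hw'
      have := hJ.1 hw'
      rw [Finset.mem_compl] at this
      exact this hw
    refine ⟨⟨Finset.subset_univ _, ?_⟩, Finset.subset_union_left⟩
    rw [Finset.card_union_of_disjoint hd, hJ.2]
    omega
  · intro J hJ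
    rw [Finset.mem_filter] at hJ
    exact Finset.union_sdiff_of_subset hJ.2
  · intro J hJ
    rw [Finset.mem_powersetCard] at hJ
    have hd : Disjoint J0 J := by
      rw [Finset.disjoint_left]
      intro w hw hw'
      have := hJ.1 hw'
      rw [Finset.mem_compl] at this
      exact this hw
    show (J0 ∪ J) \ J0 = J
    exact Finset.union_sdiff_cancel_left hd
  · intro J _
    rfl

private def cosetEquiv (J0 : Finset S) (x0 : G) (Q : G → Prop) :
    {h : HH H J0 // Q (x0 * h)} ≃ {y : G // x0⁻¹ * y ∈ HH H J0 ∧ Q y} where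
  toFun h := ⟨x0 * (h.1 : G), by
    rw [inv_mul_cancel_left]
    exact ⟨h.1.2, h.2⟩⟩
  invFun y := ⟨⟨x0⁻¹ * y.1, y.2.1⟩, by
    show Q (x0 * (x0⁻¹ * y.1))
    rw [mul_inv_cancel_left]
    exact y.2.2⟩
  left_inv h := by
    apply Subtype.ext
    apply Subtype.ext
    show x0⁻¹ * (x0 * (h.1 : G)) = h.1
    rw [inv_mul_cancel_left]
  right_inv y := by
    apply Subtype.ext
    show x0 * (x0⁻¹ * y.1) = y.1
    rw [mul_inv_cancel_left]

variable [Finite G]

omit [Group G] in
private theorem card_split (P R : G → Prop) :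
    Nat.card {y : G // P y} = Nat.card {y : G // R y ∧ P y} + Nat.card {y : G // ¬ R y ∧ P y} := by
  haveI : Fintype G := Fintype.ofFinite G
  simp only [Nat.card_eq_fintype_card, Fintype.card_subtype]
  rw [← Finset.card_filter_add_card_filter_not (s := Finset.univ.filter P) R,
    Finset.filter_filter, Finset.filter_filter]
  congr 2
  · apply Finset.filter_congr
    intro y _
    exact and_comm
  · apply Finset.filter_congr
    intro y _
    exact and_comm

private theorem card_local (J0 : Finset S) (x0 : G) (P1 P0 Q1 Q0 : G → Prop)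
    (h1 : ∀ y, x0⁻¹ * y ∈ HH H J0 → (P1 y ↔ Q1 y))
    (h2 : ∀ y, ¬ x0⁻¹ * y ∈ HH H J0 → (P1 y ↔ P0 y))
    (h3 : ∀ y, P0 y ↔ Q0 y) :
    Nat.card {y : G // P1 y} + Nat.card {h : HH H J0 // Q0 (x0 * h)} =
      Nat.card {y : G // P0 y} + Nat.card {h : HH H J0 // Q1 (x0 * h)} := by
  rw [Nat.card_congr (cosetEquiv H J0 x0 Q0), Nat.card_congr (cosetEquiv H J0 x0 Q1),
    card_split P1 (fun y => x0⁻¹ * y ∈ HH H J0), card_split P0 (fun y => x0⁻¹ * y ∈ HH H J0)]
  have e1 : Nat.card {y : G // x0⁻¹ * y ∈ HH H J0 ∧ P1 y} =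
      Nat.card {y : G // x0⁻¹ * y ∈ HH H J0 ∧ Q1 y} := by
    apply Nat.card_congr
    exact Equiv.subtypeEquivRight (fun y => and_congr_right (fun h => h1 y h))
  have e2 : Nat.card {y : G // ¬ x0⁻¹ * y ∈ HH H J0 ∧ P1 y} =
      Nat.card {y : G // ¬ x0⁻¹ * y ∈ HH H J0 ∧ P0 y} := by
    apply Nat.card_congr
    exact Equiv.subtypeEquivRight (fun y => and_congr_right (fun h => h2 y h))
  have e3 : Nat.card {y : G // x0⁻¹ * y ∈ HH H J0 ∧ P0 y} =
      Nat.card {y : G // x0⁻¹ * y ∈ HH H J0 ∧ Q0 y} := by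
    apply Nat.card_congr
    exact Equiv.subtypeEquivRight (fun y => and_congr_right (fun _ => h3 y))
  rw [e1, e2, e3]
  ring

theorem cnt_lift (K : ℕ) (F : Finset S → G → ZMod 2) (J0 : Finset S) (hc : J0.card < K) (x0 : G)
    (b : Finset S → G → ZMod 2) :
    cnt K (F + dl (lift H J0 x0 b)) + cntL H J0 x0 (K - J0.card) (lk F J0) =
      cnt K F + cntL H J0 x0 (K - J0.card) (lk F J0 + dl b) := by
  unfold cnt cntL
  rw [← sum_types K J0 hc (fun J => Nat.card {h : HH H J0 // lk F J0 J (x0 * h) ≠ 0}),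
    ← sum_types K J0 hc (fun J => Nat.card {h : HH H J0 // (lk F J0 + dl b) J (x0 * h) ≠ 0}),
    ← Finset.sum_add_distrib, ← Finset.sum_add_distrib]
  apply Finset.sum_congr rfl
  intro J _
  by_cases hsub : J0 ⊆ J
  · rw [if_pos hsub, if_pos hsub]
    refine card_local H J0 x0 (fun y => (F + dl (lift H J0 x0 b)) J y ≠ 0) (fun y => F J y ≠ 0)
      (fun y => (lk F J0 + dl b) (J \ J0) y ≠ 0) (fun y => lk F J0 (J \ J0) y ≠ 0) ?_ ?_ ?_
    · intro y hy
      have : (F + dl (lift H J0 x0 b)) J y = (lk F J0 + dl b) (J \ J0) y := by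
        show F J y + dl (lift H J0 x0 b) J y = F (J0 ∪ (J \ J0)) y + dl b (J \ J0) y
        rw [dl_lift, if_pos ⟨hsub, hy⟩, Finset.union_sdiff_of_subset hsub]
      rw [this]
    · intro y hy
      have : (F + dl (lift H J0 x0 b)) J y = F J y := by
        show F J y + dl (lift H J0 x0 b) J y = F J y
        rw [dl_lift, if_neg (fun hc => hy hc.2), add_zero]
      rw [this]
    · intro y
      have : lk F J0 (J \ J0) y = F J y := by
        show F (J0 ∪ (J \ J0)) y = F J y
        rw [Finset.union_sdiff_of_subset hsub]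
      rw [this]
  · rw [if_neg hsub, if_neg hsub, add_zero, add_zero]
    apply Nat.card_congr
    apply Equiv.subtypeEquivRight
    intro y
    have : (F + dl (lift H J0 x0 b)) J y = F J y := by
      show F J y + dl (lift H J0 x0 b) J y = F J y
      rw [dl_lift, if_neg (fun hc => hsub hc.1), add_zero]
    rw [this]

theorem cnt_lift_le (K : ℕ) (J0 : Finset S) (x0 : G) (b : Finset S → G → ZMod 2) :
    cnt K (lift H J0 x0 b) ≤ 2 ^ Fintype.card S * Nat.card (HH H J0) := by
  unfold cnt
  have h1 : ∀ J ∈ (Finset.univ : Finset S).powersetCard K,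
      Nat.card {y : G // lift H J0 x0 b J y ≠ 0} ≤ Nat.card (HH H J0) := by
    intro J _
    have hmem : ∀ y : {y : G // lift H J0 x0 b J y ≠ 0}, x0⁻¹ * y.1 ∈ HH H J0 := by
      intro y
      by_contra hc
      apply y.2
      unfold lift
      rw [if_neg (fun h => hc h.2)]
    refine Nat.card_le_card_of_injective (fun y => (⟨x0⁻¹ * y.1, hmem y⟩ : HH H J0)) ?_
    intro y y' h
    have h2 := congrArg (fun z : HH H J0 => (z : G)) h
    simp only [mul_right_inj] at h2
    exact Subtype.ext h2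
  refine (Finset.sum_le_card_nsmul _ _ _ h1).trans ?_
  rw [smul_eq_mul]
  apply Nat.mul_le_mul_right
  refine (Finset.card_le_card (t := (Finset.univ : Finset S).powerset)
    (fun J _ => Finset.mem_powerset.2 (Finset.subset_univ _))).trans ?_
  rw [Finset.card_powerset, Finset.card_univ]

end Vale.P067.PA
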