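import Vale.Agent.Lib.P067.A.Nm

/-!
# P067 part A, module Loc: subcochains of locally minimal cochains (section A4 of the text)

`g J y = if W J y then f (J0 ∪ J) y else 0`.  `loc_min_sub`: `nm (lk f) = nm g + nm (lk f - g)` (disjoint
supports), `nm (lk f + dl b) ≤ nm (g + dl b) + nm (lk f - g)`, and `LocMin`.
`loc_exp`: for `J0.card < K` apply `LinkExp H J0 (K - J0.card - 1) β` to `g` (`InvL H J0 (K - J0.card) g`), get `b` and
`β nm g ≤ β nm (g - dl b) ≤ nm (dl g)` (in characteristic two `g - dl b = g + dl b`).
For `J0.card = K`: `g ∅` is invariant under `HH H J0`, `dl g {s} y = g ∅ y`, so the right side is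
`(n - K) · nm H J0 x 0 g` with `n - K ≥ 1`, and `β ≤ 1`.
-/

namespace Vale.P067.PA

open scoped Classical

variable {S : Type*} [Fintype S] {G : Type*} [Group G] [Finite G] (H : S → Subgroup G)

theorem loc_min_sub (K : ℕ) (f : Finset S → G → ZMod 2) (hmin : LocMin H K f) (J0 : Finset S)
    (hJ0 : J0.Nonempty) (hc : J0.card < K) (W : Finset S → G → Prop) (x : G)
    (b : Finset S → G → ZMod 2) (hb : InvL H J0 (K - J0.card - 1) b) :
    nm H J0 x (K - J0.card) (fun J y => if W J y then f (J0 ∪ J) y else 0) ≤
      nm H J0 x (K - J0.card) ((fun J y => if W J y then f (J0 ∪ J) y else 0) + dl b) := by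
  have h1 := hmin J0 hJ0 hc x b hb
  set g : Finset S → G → ZMod 2 := fun J y => if W J y then f (J0 ∪ J) y else 0 with hg
  set r : Finset S → G → ZMod 2 := fun J y => if W J y then 0 else f (J0 ∪ J) y with hr
  have h2 : nm H J0 x (K - J0.card) (lk f J0) =
      nm H J0 x (K - J0.card) g + nm H J0 x (K - J0.card) r := by
    unfold nm
    rw [← Finset.sum_add_distrib]
    apply Finset.sum_congr rfl
    intro J _
    rw [← av_add]
    congr 1
    funext y
    simp only [hg, hr, lk]
    by_cases h : W J y <;> by_cases h' : f (J0 ∪ J) y = 0 <;> simp [h, h']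
  have h3 : lk f J0 + dl b = (g + dl b) + r := by
    funext J y
    simp only [hg, hr, lk, Pi.add_apply]
    by_cases h : W J y
    · simp [h]
    · simp only [h, if_false]; ring
  have h4 := nm_add_le H J0 x (K - J0.card) (g + dl b) r
  rw [← h3] at h4
  linarith

theorem loc_exp (β : ℝ) (hβ : 0 < β) (hβ1 : β ≤ 1) (K : ℕ) (hKn : K + 1 ≤ Fintype.card S)
    (f : Finset S → G → ZMod 2) (hf : InvL H ∅ K f) (hmin : LocMin H K f) (J0 : Finset S)
    (hJ0 : J0.Nonempty) (hc : J0.card ≤ K)
    (hLE : ∀ i, J0.card + i + 2 ≤ Fintype.card S → LinkExp H J0 i β)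
    (W : Finset S → G → Prop)
    (hW : ∀ J : Finset S, Disjoint J J0 → J.card = K - J0.card → ∀ x, ∀ h ∈ HH H (J0 ∪ J),
      (W J (x * h) ↔ W J x)) (x : G) :
    β * nm H J0 x (K - J0.card) (fun J y => if W J y then f (J0 ∪ J) y else 0) ≤
      nm H J0 x (K - J0.card + 1) (dl (fun J y => if W J y then f (J0 ∪ J) y else 0)) := by
  rcases Nat.lt_or_ge J0.card K with hlt | hge
  · have hi : K - J0.card - 1 + 1 = K - J0.card := by omega
    have hLE' := hLE (K - J0.card - 1) (by omega)
    have hinv : InvL H J0 (K - J0.card - 1 + 1)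
        (fun J y => if W J y then f (J0 ∪ J) y else 0) := by
      intro J hJ hJc x h hh
      rw [hi] at hJc
      have e1 : f (J0 ∪ J) (x * h) = f (J0 ∪ J) x := by
        apply hf (J0 ∪ J) (Finset.disjoint_empty_right _)
        · rw [Finset.card_union_of_disjoint hJ.symm, hJc]; omega
        · rwa [Finset.empty_union]
      have e2 := hW J hJ hJc x h hh
      simp only [e1, e2]
    obtain ⟨b, hb, hbx⟩ := hLE' _ hinv
    have h1 := hbx x
    have h2 := loc_min_sub H K f hmin J0 hJ0 hlt W x b hb
    have e3 : (fun J y => if W J y then f (J0 ∪ J) y else 0) - dl b =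
        (fun J y => if W J y then f (J0 ∪ J) y else 0) + dl b := by
      funext J y
      simp only [Pi.sub_apply, Pi.add_apply]
      rw [CharTwo.sub_eq_add]
    rw [e3] at h1
    have e4 : K - J0.card - 1 + 2 = K - J0.card + 1 := by omega
    rw [hi, e4] at h1
    exact (mul_le_mul_of_nonneg_left h2 hβ.le).trans h1
  · have hcK : J0.card = K := le_antisymm hc hge
    have h0 : K - J0.card = 0 := by omega
    rw [h0]
    set g : Finset S → G → ZMod 2 := fun J y => if W J y then f (J0 ∪ J) y else 0 with hg
    have e0 : nm H J0 x 0 g = av H J0 x (fun y => if g ∅ y = 0 then 0 else 1) := by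
      unfold nm
      rw [Finset.powersetCard_zero, Finset.sum_singleton]
    have e1 : nm H J0 x (0 + 1) (dl g) =
        ∑ s ∈ J0ᶜ, av H J0 x (fun y => if g ∅ y = 0 then 0 else 1) := by
      unfold nm
      rw [zero_add, Finset.powersetCard_one, Finset.sum_map]
      apply Finset.sum_congr rfl
      intro s _
      congr 1
      funext y
      have : dl g {s} y = g ∅ y := by
        unfold dl
        rw [Finset.sum_singleton, Finset.erase_singleton]
      simp only [Function.Embedding.coeFn_mk, this]
    rw [e0, e1, Finset.sum_const, nsmul_eq_mul]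
    have hnn : 0 ≤ av H J0 x (fun y => if g ∅ y = 0 then 0 else 1) := by
      apply av_nonneg
      intro y
      split_ifs <;> norm_num
    have hcard : (1 : ℝ) ≤ (J0ᶜ).card := by
      have : 1 ≤ (J0ᶜ).card := by
        rw [Finset.card_compl]; omega
      exact_mod_cast this
    exact mul_le_mul_of_nonneg_right (hβ1.trans hcard) hnn

end Vale.P067.PA
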