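import Vale.Agent.Lib.P067.A.Fat
import Vale.Agent.Lib.P067.A.Comb

/-!
# P067 part A, module Point: the pointwise statements (section A5 of the text)

`Wg_inv`: `Fat κ` is invariant under `HH H κ`, hence under `HH H (σ ∪ J)` for all `κ ⊆ σ ∪ J` (`HH_anti`);
`Reach.congr`.
`point_dl`: `dl (gs σ) J y = ∑ v ∈ J, gs σ (J \ v) y ≠ 0`, so some `v0 ∈ J` has `gs σ (J \ v0) y ≠ 0`: `σ` is
terminal at `y` and `σ ∪ (J \ v0) = ρ \ v0` reaches `σ`.  If `f (ρ \ v) y ≠ 0` then `Fat (ρ \ v)` (`fat_top`), and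
`reach_all` gives `v ∉ σ` and that `ρ \ v` reaches `σ`.  (Good property: for `J.card < K` it is the absence of bad
events, for `J.card ≥ K` the set `insert s J` with `K + 1` elements is not fat, `not_fat`.)  Hence
`f (ρ \ v) y = 0` for `v ∈ σ`, `f (ρ \ v) y = gs σ (J \ v) y` for `v ∈ J`, so `dl f ρ y = dl (gs σ) J y`.
`point_cover`: `exists_term` for the family of the fat sets at `y`; `σ ≠ ∅`; `σ ∪ (κ \ σ) = κ`.
-/

namespace Vale.P067.PA

open scoped Classical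

variable {S : Type*} [Fintype S] {G : Type*} [Group G] [Finite G] (H : S → Subgroup G)
  (f : Finset S → G → ZMod 2) (K : ℕ) (η : ℕ → ℝ)

theorem Wg_inv (hf : InvL H ∅ K f) (σ J : Finset S) (x h : G) (hh : h ∈ HH H (σ ∪ J)) :
    Wg H f K η σ J (x * h) ↔ Wg H f K η σ J x := by
  have hfat : ∀ τ : Finset S, τ ⊆ σ ∪ J →
      (Fat H f K η τ (x * h) ↔ Fat H f K η τ x) := fun τ hτ =>
    fat_inv H f K η hf τ x h (HH_anti H hτ hh)
  have hσ : σ ⊆ σ ∪ J := Finset.subset_union_left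
  have hterm : Term H f K η σ (x * h) ↔ Term H f K η σ x := by
    unfold Term
    rw [hfat σ hσ]
    refine and_congr_right fun _ => forall₂_congr fun v _ => ?_
    rw [hfat _ ((Finset.erase_subset v σ).trans hσ)]
  unfold Wg
  rw [hterm]
  refine and_congr_right fun _ => ⟨fun hr => ?_, fun hr => ?_⟩
  · exact hr.congr fun τ _ h2 h3 => (hfat τ h2).1 h3
  · exact hr.congr fun τ _ h2 h3 => (hfat τ h2).2 h3

theorem point_dl (y : G) (σ J : Finset S) (hd : Disjoint J σ) (hc : (σ ∪ J).card = K + 1)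
    (hgood : ¬ ∃ J' ⊆ σ ∪ J, ∃ s s' : S, s ∈ σ ∪ J ∧ s ∉ J' ∧ s' ∈ σ ∪ J ∧ s' ∉ J' ∧ s ≠ s' ∧
      Bad H f K η J' s s' y)
    (h : dl (gs H f K η σ) J y ≠ 0) : dl f (σ ∪ J) y ≠ 0 := by
  have hJσ : ∀ v ∈ J, v ∉ σ := fun v hv hσ => (Finset.disjoint_left.1 hd) hv hσ
  have herase : ∀ v ∈ J, σ ∪ J.erase v = (σ ∪ J).erase v := by
    intro v hv
    rw [Finset.erase_union_distrib, Finset.erase_eq_of_notMem (hJσ v hv)]
  have hcard : ∀ v ∈ σ ∪ J, ((σ ∪ J).erase v).card = K := by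
    intro v hv
    rw [Finset.card_erase_of_mem hv, hc]
    rfl
  obtain ⟨v0, hv0, hv0'⟩ := Finset.exists_ne_zero_of_sum_ne_zero h
  have hWg : Wg H f K η σ (J.erase v0) y := by
    by_contra hcon
    exact hv0' (if_neg hcon)
  obtain ⟨hT, hR⟩ := hWg
  rw [herase v0 hv0] at hR
  have hv0ρ : v0 ∈ σ ∪ J := Finset.mem_union_right σ hv0
  have key : ∀ v ∈ σ ∪ J, f ((σ ∪ J).erase v) y ≠ 0 →
      v ∉ σ ∧ Reach (fun κ => Fat H f K η κ y) σ ((σ ∪ J).erase v) := by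
    intro v hv hfv
    refine reach_all (fun κ => Fat H f K η κ y) (σ ∪ J) σ ?_ hT.2 v0 v hv0ρ hv hR ?_
    · intro J' hJ' s s' h1 h2 h3 h4 h5 h6 h7
      by_contra hcon
      exact hgood ⟨J', hJ', s, s', h1, h2, h3, h4, h5, h6, h7, hcon⟩
    · exact (fat_top H f K η _ y (hcard v hv)).2 hfv
  have hsum : dl f (σ ∪ J) y = dl (gs H f K η σ) J y := by
    show ∑ s ∈ σ ∪ J, f ((σ ∪ J).erase s) y = ∑ s ∈ J, gs H f K η σ (J.erase s) y
    rw [Finset.sum_union hd.symm]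
    have h1 : ∑ s ∈ σ, f ((σ ∪ J).erase s) y = 0 := by
      refine Finset.sum_eq_zero fun s hs => ?_
      by_contra hcon
      exact (key s (Finset.mem_union_left J hs) hcon).1 hs
    rw [h1, zero_add]
    refine Finset.sum_congr rfl fun s hs => ?_
    show f ((σ ∪ J).erase s) y
      = if Wg H f K η σ (J.erase s) y then f (σ ∪ J.erase s) y else 0
    by_cases h0 : f ((σ ∪ J).erase s) y = 0
    · rw [herase s hs, h0]
      simp
    · have hk := key s (Finset.mem_union_right σ hs) h0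
      rw [if_pos, herase s hs]
      refine ⟨hT, ?_⟩
      rw [herase s hs]
      exact hk.2
  rw [hsum]
  exact h

theorem point_cover (y : G) (h0 : ¬ Fat H f K η ∅ y) (κ : Finset S) (hκ : κ.card = K)
    (hf : f κ y ≠ 0) :
    ∃ σ ⊆ κ, σ.Nonempty ∧ gs H f K η σ (κ \ σ) y ≠ 0 := by
  have hA : Fat H f K η κ y := (fat_top H f K η κ y hκ).2 hf
  obtain ⟨σ, hR, hT⟩ := exists_term (fun τ => Fat H f K η τ y) κ hA
  have hsub : σ ⊆ κ := hR.subset
  refine ⟨σ, hsub, ?_, ?_⟩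
  · rw [Finset.nonempty_iff_ne_empty]
    rintro rfl
    exact h0 hR.left
  · have hu : σ ∪ κ \ σ = κ := Finset.union_sdiff_of_subset hsub
    show (if Wg H f K η σ (κ \ σ) y then f (σ ∪ κ \ σ) y else 0) ≠ 0
    rw [if_pos, hu]
    · exact hf
    · refine ⟨⟨hR.left, hT⟩, ?_⟩
      rw [hu]
      exact hR

end Vale.P067.PA
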