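import Vale.Agent.Lib.P067.A.BadM
import Vale.Agent.Lib.P067.A.Const
import Vale.Agent.Lib.P067.A.Loc
import Vale.Agent.Lib.P067.A.Point

/-!
# P067 part A, module Small: the small-set theorem (section A5 of the text)

Sum over the types `σ` nonempty with at most `K` elements.  `sum_lower`: for each `κ` with `K` elements and each `y`,
`ind (f κ y ≠ 0) ≤ ∑_{σ ⊆ κ nonempty} ind (gs σ (κ \ σ) y ≠ 0)` (`point_cover`); the map `(σ, κ) ↦ (σ, κ \ σ)` is
injective into the pairs `(σ, J)` with `J ⊆ σᶜ`, `J.card = K - σ.card`.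
`sum_upper`: for each `(σ, J)` with `J ⊆ σᶜ`, `J.card = K - σ.card + 1`, put `ρ = σ ∪ J` (`K + 1` elements);
`ind (dl (gs σ) J y ≠ 0) ≤ ind (dl f ρ y ≠ 0) + ind (bad inside ρ)` (`point_dl`), then `bad_inside_le`; there are at
most `2^n · 2^n` pairs and every `ρ` occurs at most `2^n` times.
`small_set`: `loc_exp` for every `σ` (predicate `Wg σ`), averaged (`Ex_nm`), then
`β nm f ≤ 2^n nm (dl f) + 4^n totBad`, and `totBad ≤ e nm f` with `e = β / (2 · 4^n)` by `totBad_le`, `mass_le`,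
`exists_consts`.  `μ = η 0 / (1 + ∏ l ∈ Ico 1 K, (l+1)/η l)` (then `mass 1 < η 0`), `c = β / 2^(n+1)`.
-/

namespace Vale.P067.PA

open scoped Classical

/-- the types of the terminal faces -/
noncomputable def tys (S : Type*) [Fintype S] (K : ℕ) : Finset (Finset S) :=
  (Finset.univ : Finset S).powerset.filter (fun σ => σ.Nonempty ∧ σ.card ≤ K)

theorem mem_tys {S : Type*} [Fintype S] (K : ℕ) (σ : Finset S) :
    σ ∈ tys S K ↔ σ.Nonempty ∧ σ.card ≤ K := by
  simp [tys]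

theorem card_tys_le (S : Type*) [Fintype S] (K : ℕ) :
    ((tys S K).card : ℝ) ≤ 2 ^ Fintype.card S := by
  have h : (tys S K).card ≤ 2 ^ Fintype.card S := by
    refine (Finset.card_filter_le _ _).trans ?_
    rw [Finset.card_powerset, Finset.card_univ]
  exact_mod_cast h

theorem card_pc_le {S : Type*} [Fintype S] (s : Finset S) (m : ℕ) :
    ((s.powersetCard m).card : ℝ) ≤ 2 ^ Fintype.card S := by
  have h : (s.powersetCard m).card ≤ 2 ^ Fintype.card S := by
    calc (s.powersetCard m).card = s.card.choose m := Finset.card_powersetCard _ _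
      _ ≤ 2 ^ s.card := Nat.choose_le_two_pow _ _
      _ ≤ 2 ^ Fintype.card S := Nat.pow_le_pow_right (by norm_num) (Finset.card_le_univ _)
  exact_mod_cast h

section
variable {S : Type*} [Fintype S] {G : Type*} [Group G] [Finite G] (H : S → Subgroup G)
  (f : Finset S → G → ZMod 2) (K : ℕ) (η : ℕ → ℝ)

theorem sum_lower (h0 : ∀ y, ¬ Fat H f K η ∅ y) :
    ∑ κ ∈ (Finset.univ : Finset S).powersetCard K, Ex (fun y => ind (f κ y ≠ 0)) ≤
      ∑ σ ∈ tys S K, ∑ J ∈ (σᶜ).powersetCard (K - σ.card),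
        Ex (fun y => ind (gs H f K η σ J y ≠ 0)) := by
  have h1 : ∀ κ ∈ (Finset.univ : Finset S).powersetCard K, Ex (fun y => ind (f κ y ≠ 0)) ≤
      ∑ σ ∈ (tys S K).filter (fun σ => σ ⊆ κ),
        Ex (fun y => ind (gs H f K η σ (κ \ σ) y ≠ 0)) := by
    intro κ hκ
    rw [Finset.mem_powersetCard] at hκ
    rw [← Ex_sum]
    apply Ex_mono
    intro y
    by_cases hy : f κ y ≠ 0
    · obtain ⟨σ, h2, h3, h4⟩ := point_cover H f K η y (h0 y) κ hκ.2 hy
      have h5 : σ ∈ (tys S K).filter (fun σ => σ ⊆ κ) := by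
        rw [Finset.mem_filter, mem_tys]
        exact ⟨⟨h3, (Finset.card_le_card h2).trans hκ.2.le⟩, h2⟩
      have h6 : ind (f κ y ≠ 0) ≤ ind (gs H f K η σ (κ \ σ) y ≠ 0) := ind_mono (fun _ => h4)
      refine h6.trans ?_
      exact Finset.single_le_sum
        (f := fun σ => ind (gs H f K η σ (κ \ σ) y ≠ 0)) (fun i _ => ind_nonneg _) h5
    · have h2 : ind (f κ y ≠ 0) = 0 := by
        unfold ind
        rw [if_neg hy]
      rw [h2]
      exact Finset.sum_nonneg (fun i _ => ind_nonneg _)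
  refine (Finset.sum_le_sum h1).trans (le_of_eq ?_)
  rw [Finset.sum_comm' (s' := fun σ => ((Finset.univ : Finset S).powersetCard K).filter
    (fun κ => σ ⊆ κ)) (t' := tys S K)]
  · refine Finset.sum_congr rfl (fun σ hσ => ?_)
    rw [mem_tys] at hσ
    refine Finset.sum_bij' (fun κ _ => κ \ σ) (fun J _ => σ ∪ J) ?_ ?_ ?_ ?_ ?_
    · intro κ hκ
      rw [Finset.mem_filter, Finset.mem_powersetCard] at hκ
      rw [Finset.mem_powersetCard]
      refine ⟨?_, ?_⟩
      · intro a ha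
        rw [Finset.mem_sdiff] at ha
        exact Finset.mem_compl.mpr ha.2
      · rw [Finset.card_sdiff_of_subset hκ.2, hκ.1.2]
    · intro J hJ
      rw [Finset.mem_powersetCard] at hJ
      have hd : Disjoint σ J := by
        rw [Finset.disjoint_left]
        intro a ha hb
        exact (Finset.mem_compl.mp (hJ.1 hb)) ha
      rw [Finset.mem_filter, Finset.mem_powersetCard]
      refine ⟨⟨Finset.subset_univ _, ?_⟩, Finset.subset_union_left⟩
      rw [Finset.card_union_of_disjoint hd, hJ.2]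
      omega
    · intro κ hκ
      rw [Finset.mem_filter] at hκ
      exact Finset.union_sdiff_of_subset hκ.2
    · intro J hJ
      rw [Finset.mem_powersetCard] at hJ
      have hd : Disjoint J σ := by
        rw [Finset.disjoint_left]
        intro a ha hb
        exact (Finset.mem_compl.mp (hJ.1 ha)) hb
      exact Finset.union_sdiff_cancel_left hd.symm
    · intro κ hκ
      rfl
  · intro κ σ
    simp only [Finset.mem_filter]
    tauto

theorem totBad_nonneg : 0 ≤ totBad H f K η := by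
  unfold totBad
  refine Finset.sum_nonneg (fun j _ => Finset.sum_nonneg (fun J _ => Finset.sum_nonneg
    (fun s _ => Finset.sum_nonneg (fun s' _ => Ex_nonneg _ (fun y => ind_nonneg _)))))

theorem pair_upper (σ J : Finset S) (hσ : σ ∈ tys S K)
    (hJ : J ∈ (σᶜ).powersetCard (K - σ.card + 1)) :
    Ex (fun y => ind (dl (gs H f K η σ) J y ≠ 0)) ≤
      Ex (fun y => ind (dl f (σ ∪ J) y ≠ 0)) + totBad H f K η := by
  rw [mem_tys] at hσ
  rw [Finset.mem_powersetCard] at hJ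
  have hd : Disjoint J σ := by
    rw [Finset.disjoint_left]
    intro a ha hb
    exact (Finset.mem_compl.mp (hJ.1 ha)) hb
  have hc : (σ ∪ J).card = K + 1 := by
    rw [Finset.card_union_of_disjoint hd.symm, hJ.2]
    omega
  have h1 := bad_inside_le H f K η (σ ∪ J) hc.le
  refine le_trans ?_ (add_le_add (le_refl _) h1)
  rw [← Ex_add]
  apply Ex_mono
  intro y
  by_cases hy : dl (gs H f K η σ) J y ≠ 0
  · by_cases hb : ∃ J' ⊆ σ ∪ J, ∃ s s' : S, s ∈ σ ∪ J ∧ s ∉ J' ∧ s' ∈ σ ∪ J ∧ s' ∉ J' ∧ s ≠ s' ∧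
      Bad H f K η J' s s' y
    · have h2 : ind (dl (gs H f K η σ) J y ≠ 0) ≤ 1 := ind_le_one _
      have h3 := ind_nonneg (dl f (σ ∪ J) y ≠ 0)
      have h4 : ind (∃ J' ⊆ σ ∪ J, ∃ s s' : S, s ∈ σ ∪ J ∧ s ∉ J' ∧ s' ∈ σ ∪ J ∧ s' ∉ J' ∧
          s ≠ s' ∧ Bad H f K η J' s s' y) = 1 := by
        unfold ind
        rw [if_pos hb]
      rw [h4]
      linarith
    · have h2 := point_dl H f K η y σ J hd hc hb hy
      have h3 : ind (dl (gs H f K η σ) J y ≠ 0) ≤ ind (dl f (σ ∪ J) y ≠ 0) :=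
        ind_mono (fun _ => h2)
      have h4 := ind_nonneg (∃ J' ⊆ σ ∪ J, ∃ s s' : S, s ∈ σ ∪ J ∧ s ∉ J' ∧ s' ∈ σ ∪ J ∧
        s' ∉ J' ∧ s ≠ s' ∧ Bad H f K η J' s s' y)
      linarith
  · have h2 : ind (dl (gs H f K η σ) J y ≠ 0) = 0 := by
      unfold ind
      rw [if_neg hy]
    rw [h2]
    exact add_nonneg (ind_nonneg _) (ind_nonneg _)

theorem sum_union_le (a : Finset S → ℝ) (ha : ∀ ρ, 0 ≤ a ρ) (σ : Finset S) (hσ : σ ∈ tys S K) :
    ∑ J ∈ (σᶜ).powersetCard (K - σ.card + 1), a (σ ∪ J) ≤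
      ∑ ρ ∈ (Finset.univ : Finset S).powersetCard (K + 1), a ρ := by
  rw [mem_tys] at hσ
  have hinj : Set.InjOn (fun J => σ ∪ J) (((σᶜ).powersetCard (K - σ.card + 1) : Finset (Finset S)) :
      Set (Finset S)) := by
    intro J hJ J' hJ' h
    rw [Finset.mem_coe, Finset.mem_powersetCard] at hJ hJ'
    have hd : Disjoint σ J := by
      rw [Finset.disjoint_left]
      intro a ha hb
      exact (Finset.mem_compl.mp (hJ.1 hb)) ha
    have hd' : Disjoint σ J' := by
      rw [Finset.disjoint_left]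
      intro a ha hb
      exact (Finset.mem_compl.mp (hJ'.1 hb)) ha
    have h' : σ ∪ J = σ ∪ J' := h
    rw [← Finset.union_sdiff_cancel_left hd, ← Finset.union_sdiff_cancel_left hd', h']
  rw [← Finset.sum_image (f := a) (g := fun J => σ ∪ J) hinj]
  refine Finset.sum_le_sum_of_subset_of_nonneg ?_ (fun ρ _ _ => ha ρ)
  intro ρ hρ
  rw [Finset.mem_image] at hρ
  obtain ⟨J, hJ, rfl⟩ := hρ
  rw [Finset.mem_powersetCard] at hJ ⊢
  refine ⟨Finset.subset_univ _, ?_⟩
  have hd : Disjoint σ J := by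
    rw [Finset.disjoint_left]
    intro a ha hb
    exact (Finset.mem_compl.mp (hJ.1 hb)) ha
  rw [Finset.card_union_of_disjoint hd, hJ.2]
  omega

theorem sum_upper :
    ∑ σ ∈ tys S K, ∑ J ∈ (σᶜ).powersetCard (K - σ.card + 1),
        Ex (fun y => ind (dl (gs H f K η σ) J y ≠ 0)) ≤
      2 ^ Fintype.card S * (∑ ρ ∈ (Finset.univ : Finset S).powersetCard (K + 1),
        Ex (fun y => ind (dl f ρ y ≠ 0))) + 4 ^ Fintype.card S * totBad H f K η := by
  have hB := totBad_nonneg H f K η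
  have h1 : ∀ σ ∈ tys S K, ∑ J ∈ (σᶜ).powersetCard (K - σ.card + 1),
        Ex (fun y => ind (dl (gs H f K η σ) J y ≠ 0)) ≤
      (∑ ρ ∈ (Finset.univ : Finset S).powersetCard (K + 1),
        Ex (fun y => ind (dl f ρ y ≠ 0))) + 2 ^ Fintype.card S * totBad H f K η := by
    intro σ hσ
    have h2 : ∑ J ∈ (σᶜ).powersetCard (K - σ.card + 1),
        Ex (fun y => ind (dl (gs H f K η σ) J y ≠ 0)) ≤
        ∑ J ∈ (σᶜ).powersetCard (K - σ.card + 1),
          (Ex (fun y => ind (dl f (σ ∪ J) y ≠ 0)) + totBad H f K η) :=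
      Finset.sum_le_sum (fun J hJ => pair_upper H f K η σ J hσ hJ)
    refine h2.trans ?_
    rw [Finset.sum_add_distrib, Finset.sum_const, nsmul_eq_mul]
    refine add_le_add ?_ ?_
    · exact sum_union_le K (fun ρ => Ex (fun y => ind (dl f ρ y ≠ 0)))
        (fun ρ => Ex_nonneg _ (fun y => ind_nonneg _)) σ hσ
    · exact mul_le_mul_of_nonneg_right (card_pc_le _ _) hB
  refine (Finset.sum_le_sum h1).trans ?_
  rw [Finset.sum_const, nsmul_eq_mul]
  have hA : 0 ≤ ∑ ρ ∈ (Finset.univ : Finset S).powersetCard (K + 1),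
        Ex (fun y => ind (dl f ρ y ≠ 0)) :=
    Finset.sum_nonneg (fun ρ _ => Ex_nonneg _ (fun y => ind_nonneg _))
  have h3 : (4 : ℝ) ^ Fintype.card S = 2 ^ Fintype.card S * 2 ^ Fintype.card S := by
    rw [← mul_pow]; norm_num
  rw [h3, mul_assoc, ← mul_add]
  exact mul_le_mul_of_nonneg_right (card_tys_le S K)
    (add_nonneg hA (mul_nonneg (by positivity) hB))

end

theorem small_set (S : Type) [Fintype S] (β : ℝ) (hβ : 0 < β) (hβ1 : β ≤ 1) (K : ℕ) (hK : 1 ≤ K)
    (hKn : K + 1 ≤ Fintype.card S) :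
    ∃ μ > 0, ∃ c > 0, ∃ lam > 0, ∀ (G : Type) [Group G] [Finite G] (H : S → Subgroup G),
      Spec H lam →
      (∀ J0 : Finset S, J0.Nonempty → ∀ i, J0.card + i + 2 ≤ Fintype.card S → LinkExp H J0 i β) →
      ∀ f : Finset S → G → ZMod 2, InvL H ∅ K f → LocMin H K f → nm H ∅ 1 K f < μ →
        c * nm H ∅ 1 K f ≤ nm H ∅ 1 (K + 1) (dl f) := by
  set n := Fintype.card S with hn
  have he : 0 < β / (2 * 4 ^ n) := by positivity
  obtain ⟨η, lam, hη, hlam, hsum⟩ := exists_consts n K (β / (2 * 4 ^ n)) he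
  set P1 : ℝ := ∏ l ∈ Finset.Ico 1 K, (((l : ℝ) + 1) / η l) with hP1
  have hP1n : 0 ≤ P1 := Finset.prod_nonneg (fun l _ => by
    have := hη l
    positivity)
  refine ⟨η 0 / (1 + P1), div_pos (hη 0) (by linarith), β / 2 ^ (n + 1), by positivity, lam, hlam, ?_⟩
  intro G _ _ H hspec hLE f hf hmin hsmall
  have hN : 0 ≤ nm H ∅ 1 K f := nm_nonneg H ∅ 1 K f
  have hm1 : mass H f K η 1 < η 0 := by
    have h1 := mass_le H f K η hη (1 : G) 1 hK
    have h2 : mass H f K η 1 ≤ P1 * (η 0 / (1 + P1)) :=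
      h1.trans (mul_le_mul_of_nonneg_left hsmall.le hP1n)
    refine h2.trans_lt ?_
    rw [← mul_div_assoc, div_lt_iff₀ (by linarith)]
    have := hη 0
    nlinarith
  have h0 : ∀ y, ¬ Fat H f K η ∅ y := fun y => not_fat_empty H f K η hK hm1 y
  have hlow := sum_lower H f K η h0
  have hup := sum_upper H f K η
  have hloc : ∀ σ ∈ tys S K, β * ∑ J ∈ (σᶜ).powersetCard (K - σ.card),
        Ex (fun y => ind (gs H f K η σ J y ≠ 0)) ≤
      ∑ J ∈ (σᶜ).powersetCard (K - σ.card + 1),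
        Ex (fun y => ind (dl (gs H f K η σ) J y ≠ 0)) := by
    intro σ hσ
    rw [mem_tys] at hσ
    rw [← Ex_nm, ← Ex_nm, ← Ex_const_mul]
    apply Ex_mono
    intro x
    exact loc_exp H β hβ hβ1 K hKn f hf hmin σ hσ.1 hσ.2 (fun i hi => hLE σ hσ.1 i hi)
      (Wg H f K η σ) (fun J _ _ y h hh => Wg_inv H f K η hf σ J y h hh) x
  have h1 : β * nm H ∅ 1 K f ≤ 2 ^ n * nm H ∅ 1 (K + 1) (dl f) + 4 ^ n * totBad H f K η := by
    rw [nm_empty, nm_empty]
    calc β * ∑ κ ∈ (Finset.univ : Finset S).powersetCard K, Ex (fun y => ind (f κ y ≠ 0))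
        ≤ β * ∑ σ ∈ tys S K, ∑ J ∈ (σᶜ).powersetCard (K - σ.card),
          Ex (fun y => ind (gs H f K η σ J y ≠ 0)) := mul_le_mul_of_nonneg_left hlow hβ.le
      _ = ∑ σ ∈ tys S K, β * ∑ J ∈ (σᶜ).powersetCard (K - σ.card),
          Ex (fun y => ind (gs H f K η σ J y ≠ 0)) := Finset.mul_sum _ _ _
      _ ≤ ∑ σ ∈ tys S K, ∑ J ∈ (σᶜ).powersetCard (K - σ.card + 1),
          Ex (fun y => ind (dl (gs H f K η σ) J y ≠ 0)) := Finset.sum_le_sum hloc
      _ ≤ _ := hup
  have h2 : totBad H f K η ≤ β / (2 * 4 ^ n) * nm H ∅ 1 K f := by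
    refine (totBad_le H f K η hf hη lam hlam.le hspec).trans ?_
    refine le_trans ?_ (mul_le_mul_of_nonneg_right hsum hN)
    rw [Finset.sum_mul]
    refine Finset.sum_le_sum (fun j hj => ?_)
    rw [Finset.mem_range] at hj
    have h3 := mass_le H f K η hη (1 : G) (j + 1) hj
    rw [mul_assoc ((η j + lam) * (2 * (n : ℝ) * ((j : ℝ) + 1)))]
    refine mul_le_mul_of_nonneg_left h3 ?_
    have := hη j
    positivity
  have h3 : (4 : ℝ) ^ n * totBad H f K η ≤ β / 2 * nm H ∅ 1 K f := by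
    calc (4 : ℝ) ^ n * totBad H f K η ≤ 4 ^ n * (β / (2 * 4 ^ n) * nm H ∅ 1 K f) :=
          mul_le_mul_of_nonneg_left h2 (by positivity)
      _ = β / 2 * nm H ∅ 1 K f := by
          field_simp
  have h4 : β / 2 * nm H ∅ 1 K f ≤ 2 ^ n * nm H ∅ 1 (K + 1) (dl f) := by linarith
  have h5 : (0 : ℝ) < 2 ^ n := by positivity
  have h6 : β / 2 ^ (n + 1) * nm H ∅ 1 K f = (β / 2 * nm H ∅ 1 K f) / 2 ^ n := by
    rw [pow_succ]
    field_simp
  rw [h6, div_le_iff₀ h5]
  linarith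

end Vale.P067.PA
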