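import Vale.Agent.Lib.P067.Interface
import Vale.Agent.Lib.P067.A.Small
import Vale.Agent.Lib.P067.A.Algo

/-!
# P067 part A, module Main: link expansion + spectral gap + vanishing ⇒ coboundary expansion (section A8)

WLOG `β ≤ 1` (`LinkExp` is monotone in `β` since `nm ≥ 0`).  For each `j` with `j + 3 ≤ n` apply `small_set` with
`K = j + 2`; take `lam`, `μ` the minima over the finitely many `j`.  Given `f`: `F = dl f`.  If `nm F ≥ μ` take `b = 0`:
`nm f ≤ 2^n ≤ (2^n / μ) nm F`.  Otherwise `correct` gives `h`, `F' = F + dl h = dl (f + h)` locally minimal with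
`nm F' ≤ nm F < μ`, `dl F' = 0` (`dl_dl`), so `small_set` gives `nm F' = 0`, i.e. `dl (f + h) = 0` on the types with
`j + 2` elements (`nm_eq_zero`); `Van` gives `b` with `f + h = dl b` on the types with `j + 1` elements, so
`nm (f - dl b) = nm h ≤ 2^n Q nm F`.  `ε = min (μ / 2^n) (1 / (2^n (max Q 1)))`.
-/

namespace Vale.P067.PA

open scoped Classical

theorem linkExp_mono {S : Type*} [Fintype S] {G : Type*} [Group G] [Finite G]
    (H : S → Subgroup G) (J0 : Finset S) (i : ℕ) {β β' : ℝ} (h : β' ≤ β)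
    (hL : LinkExp H J0 i β) : LinkExp H J0 i β' := by
  intro g hg
  obtain ⟨b, hb, hb2⟩ := hL g hg
  refine ⟨b, hb, fun x => le_trans ?_ (hb2 x)⟩
  exact mul_le_mul_of_nonneg_right h (nm_nonneg H J0 x (i + 1) (g - dl b))

private theorem exp_mono {S : Type*} [Fintype S] {G : Type*} [Group G] [Finite G]
    (H : S → Subgroup G) (j : ℕ) {ε ε' : ℝ} (h : ε' ≤ ε) (hE : Exp H j ε) : Exp H j ε' := by
  intro f hf
  obtain ⟨b, hb, hb2⟩ := hE f hf
  refine ⟨b, hb, le_trans ?_ hb2⟩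
  exact mul_le_mul_of_nonneg_right h (nm_nonneg H ∅ 1 (j + 1) (f - dl b))

private theorem exists_pos_le (N : ℕ) (a : ℕ → ℝ) (ha : ∀ j < N, 0 < a j) :
    ∃ m > 0, ∀ j < N, m ≤ a j := by
  induction N with
  | zero => exact ⟨1, one_pos, fun j hj => absurd hj (Nat.not_lt_zero j)⟩
  | succ N ih =>
    obtain ⟨m, hm, hm2⟩ := ih (fun j hj => ha j (Nat.lt_succ_of_lt hj))
    refine ⟨min m (a N), lt_min hm (ha N (Nat.lt_succ_self N)), fun j hj => ?_⟩
    rcases Nat.lt_succ_iff_lt_or_eq.mp hj with h | h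
    · exact le_trans (min_le_left _ _) (hm2 j h)
    · rw [h]; exact min_le_right _ _

private theorem zmod2_aux (a b c : ZMod 2) (h : a + b = c) : a - c = b := by
  rw [← h]
  have : a - (a + b) = -b := by ring
  rw [this]
  exact CharTwo.neg_eq b

/-- one degree -/
theorem partA_one (S : Type) [Fintype S] (β : ℝ) (hβ : 0 < β) (j : ℕ)
    (hj : j + 3 ≤ Fintype.card S) :
    ∃ lam > 0, ∀ Q : ℝ, ∃ ε > 0, ∀ (G : Type) [Group G] [Finite G] (H : S → Subgroup G),
      (∀ s, (Nat.card (H s) : ℝ) ≤ Q) → Spec H lam →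
      (∀ J0 : Finset S, J0.Nonempty → ∀ i, J0.card + i + 2 ≤ Fintype.card S → LinkExp H J0 i β) →
      Van H j → Exp H j ε := by
  obtain ⟨μ, hμ, c, hc, lam, hlam, hS⟩ := small_set S (min β 1) (lt_min hβ one_pos)
    (min_le_right _ _) (j + 2) (by omega) (by omega)
  refine ⟨lam, hlam, fun Q => ?_⟩
  have hP : (0 : ℝ) < 2 ^ Fintype.card S := by positivity
  have hQ1 : (0 : ℝ) < max Q 1 := lt_of_lt_of_le one_pos (le_max_right _ _)
  refine ⟨min (μ / 2 ^ Fintype.card S) (1 / (2 ^ Fintype.card S * max Q 1)),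
    lt_min (by positivity) (by positivity), ?_⟩
  intro G _ _ H hQ hspec hlink hvan f hf
  have hF : InvL H ∅ (j + 2) (dl f) := InvL.dl hf
  rcases le_or_gt μ (nm H ∅ 1 (j + 2) (dl f)) with hcase | hcase
  · refine ⟨0, InvL.zero H ∅ j, ?_⟩
    rw [dl_zero, sub_zero]
    have h1 := nm_le_pow H ∅ 1 (j + 1) f
    have h0 := nm_nonneg H ∅ 1 (j + 1) f
    calc min (μ / 2 ^ Fintype.card S) (1 / (2 ^ Fintype.card S * max Q 1)) * nm H ∅ 1 (j + 1) f
        ≤ (μ / 2 ^ Fintype.card S) * nm H ∅ 1 (j + 1) f :=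
          mul_le_mul_of_nonneg_right (min_le_left _ _) h0
      _ ≤ (μ / 2 ^ Fintype.card S) * 2 ^ Fintype.card S :=
          mul_le_mul_of_nonneg_left h1 (by positivity)
      _ = μ := by field_simp
      _ ≤ _ := hcase
  · have hne : Nonempty S := Fintype.card_pos_iff.mp (by omega)
    obtain ⟨s0⟩ := hne
    have hQge : (1 : ℝ) ≤ Q := by
      refine le_trans ?_ (hQ s0)
      exact_mod_cast Nat.card_pos
    obtain ⟨h, hh, hloc, hle⟩ := correct H Q hQ (j + 2) (by omega) (dl f) hF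
    have e1 : j + 2 - 1 = j + 1 := by omega
    rw [e1] at hh hle
    have hh0 := nm_nonneg H ∅ 1 (j + 1) h
    have hdd : dl (dl f + dl h) = 0 := by rw [dl_add, dl_dl, dl_dl, add_zero]
    have hF' : InvL H ∅ (j + 2) (dl f + dl h) := InvL.add hF (InvL.dl hh)
    have hF'0 := nm_nonneg H ∅ 1 (j + 2) (dl f + dl h)
    have hPQ : (0 : ℝ) < 2 ^ Fintype.card S * Q := by positivity
    have hdec : nm H ∅ 1 (j + 2) (dl f + dl h) ≤ nm H ∅ 1 (j + 2) (dl f) := by
      by_contra hcon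
      have hcon' := not_le.mp hcon
      have h2 : 2 ^ Fintype.card S * Q *
          (nm H ∅ 1 (j + 2) (dl f) - nm H ∅ 1 (j + 2) (dl f + dl h)) < 0 :=
        mul_neg_of_pos_of_neg hPQ (by linarith)
      linarith
    have hsm := hS G H hspec
      (fun J0 hJ0 i hi => linkExp_mono H J0 i (min_le_left _ _) (hlink J0 hJ0 i hi))
      (dl f + dl h) hF' hloc (lt_of_le_of_lt hdec hcase)
    have hz : nm H ∅ 1 (j + 2 + 1) (dl (dl f + dl h)) = 0 := by
      rw [hdd]
      have h3 : nm H ∅ (1 : G) (j + 2 + 1) (0 : Finset S → G → ZMod 2) = 0 := by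
        rw [nm_empty]
        refine Finset.sum_eq_zero fun J _ => ?_
        have h4 : (fun y : G => ind ((0 : Finset S → G → ZMod 2) J y ≠ 0)) = fun _ => (0 : ℝ) := by
          funext y
          simp [ind]
        rw [h4]
        exact Ex_const 0
      exact h3
    rw [hz] at hsm
    have hF'z : nm H ∅ 1 (j + 2) (dl f + dl h) = 0 := by
      apply le_antisymm _ hF'0
      by_contra hcon
      have hcon' := not_le.mp hcon
      have := mul_pos hc hcon'
      linarith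
    obtain ⟨b, hb, hb2⟩ := hvan (f + h) (InvL.add hf hh) (by
      intro J hJ x
      rw [dl_add]
      exact nm_eq_zero H 1 (j + 2) (dl f + dl h) hF'z J hJ x)
    refine ⟨b, hb, ?_⟩
    have hcg : nm H ∅ 1 (j + 1) (f - dl b) = nm H ∅ 1 (j + 1) h := by
      refine nm_congr H ∅ 1 (j + 1) _ _ (fun J _ hJ y => ?_)
      change f J y - dl b J y = h J y
      exact zmod2_aux _ _ _ (hb2 J hJ y)
    rw [hcg]
    have hFn := nm_nonneg H ∅ 1 (j + 2) (dl f)
    calc min (μ / 2 ^ Fintype.card S) (1 / (2 ^ Fintype.card S * max Q 1)) * nm H ∅ 1 (j + 1) h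
        ≤ (1 / (2 ^ Fintype.card S * max Q 1)) * nm H ∅ 1 (j + 1) h :=
          mul_le_mul_of_nonneg_right (min_le_right _ _) hh0
      _ ≤ (1 / (2 ^ Fintype.card S * max Q 1)) *
            (2 ^ Fintype.card S * max Q 1 * nm H ∅ 1 (j + 2) (dl f)) := by
          refine mul_le_mul_of_nonneg_left (le_trans hle ?_) (by positivity)
          have h5 : nm H ∅ 1 (j + 2) (dl f) - nm H ∅ 1 (j + 2) (dl f + dl h)
              ≤ nm H ∅ 1 (j + 2) (dl f) := by linarith
          calc 2 ^ Fintype.card S * Q *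
                (nm H ∅ 1 (j + 2) (dl f) - nm H ∅ 1 (j + 2) (dl f + dl h))
              ≤ 2 ^ Fintype.card S * Q * nm H ∅ 1 (j + 2) (dl f) :=
                mul_le_mul_of_nonneg_left h5 hPQ.le
            _ ≤ 2 ^ Fintype.card S * max Q 1 * nm H ∅ 1 (j + 2) (dl f) := by
                refine mul_le_mul_of_nonneg_right ?_ hFn
                exact mul_le_mul_of_nonneg_left (le_max_left _ _) hP.le
      _ = nm H ∅ 1 (j + 2) (dl f) := by field_simp

/-- `lam` does not depend on `Q` (the bound for the orders of the subgroups) -/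
theorem partA_gen (S : Type) [Fintype S] (β : ℝ) (hβ : 0 < β) :
    ∃ lam > 0, ∀ Q : ℝ, ∃ ε > 0, ∀ (G : Type) [Group G] [Finite G] (H : S → Subgroup G),
      (∀ s, (Nat.card (H s) : ℝ) ≤ Q) → Spec H lam →
      (∀ J0 : Finset S, J0.Nonempty → ∀ i, J0.card + i + 2 ≤ Fintype.card S → LinkExp H J0 i β) →
      ∀ j, j + 3 ≤ Fintype.card S → Van H j → Exp H j ε := by
  have key : ∀ j : ℕ, ∃ lam : ℝ, 0 < lam ∧ (j + 3 ≤ Fintype.card S → ∀ Q : ℝ, ∃ ε : ℝ, 0 < ε ∧
      ∀ (G : Type) [Group G] [Finite G] (H : S → Subgroup G),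
      (∀ s, (Nat.card (H s) : ℝ) ≤ Q) → Spec H lam →
      (∀ J0 : Finset S, J0.Nonempty → ∀ i, J0.card + i + 2 ≤ Fintype.card S → LinkExp H J0 i β) →
      Van H j → Exp H j ε) := by
    intro j
    by_cases hj : j + 3 ≤ Fintype.card S
    · obtain ⟨lam, hlam, hrest⟩ := partA_one S β hβ j hj
      exact ⟨lam, hlam, fun _ => hrest⟩
    · exact ⟨1, one_pos, fun h => absurd h hj⟩
  choose lam hlam hrest using key
  obtain ⟨l0, hl0, hl0le⟩ := exists_pos_le (Fintype.card S) lam (fun j _ => hlam j)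
  refine ⟨l0, hl0, fun Q => ?_⟩
  have key2 : ∀ j : ℕ, ∃ ε : ℝ, 0 < ε ∧ (j + 3 ≤ Fintype.card S →
      ∀ (G : Type) [Group G] [Finite G] (H : S → Subgroup G),
      (∀ s, (Nat.card (H s) : ℝ) ≤ Q) → Spec H (lam j) →
      (∀ J0 : Finset S, J0.Nonempty → ∀ i, J0.card + i + 2 ≤ Fintype.card S → LinkExp H J0 i β) →
      Van H j → Exp H j ε) := by
    intro j
    by_cases hj : j + 3 ≤ Fintype.card S
    · obtain ⟨ε, hε, h2⟩ := hrest j hj Q
      exact ⟨ε, hε, fun _ => h2⟩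
    · exact ⟨1, one_pos, fun h => absurd h hj⟩
  choose eps heps hrest2 using key2
  obtain ⟨e0, he0, he0le⟩ := exists_pos_le (Fintype.card S) eps (fun j _ => heps j)
  refine ⟨e0, he0, ?_⟩
  intro G _ _ H hQ hspec hlink j hj hvan
  exact exp_mono H j (he0le j (by omega))
    (hrest2 j hj G H hQ (Spec_mono H (hl0le j (by omega)) hspec) hlink hvan)

theorem partA : PartA := by
  intro n β hβ
  obtain ⟨lam, hlam, h⟩ := partA_gen (Fin n) β hβ
  refine ⟨lam, hlam, fun Q => ?_⟩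
  obtain ⟨ε, hε, h2⟩ := h Q
  refine ⟨ε, hε, ?_⟩
  intro G _ _ H hQ hspec hlink j hj hvan
  refine h2 G H hQ hspec ?_ j ?_ hvan
  · intro J0 hJ0 i hi
    exact hlink J0 hJ0 i (by rwa [Fintype.card_fin] at hi)
  · rwa [Fintype.card_fin]

end Vale.P067.PA
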