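import Vale.Agent.Lib.P067.A.Av

/-!
# P067 part A, module Nm: norms, coboundaries, invariance

`nm` is a finite sum of averages of indicators; in characteristic two `f + g ≠ 0` implies `f ≠ 0 ∨ g ≠ 0`.
`dl_dl`: the double sum over ordered pairs `s ≠ t` of `f ((J \ s) \ t)` is symmetric, so it vanishes mod 2
(`Finset.sum_involution` or `CharTwo`).  `cnt_eq`, `cntL_eq`: multiply by the number of elements.
-/

namespace Vale.P067.PA

open scoped Classical

variable {S : Type*} [Fintype S] {G : Type*} [Group G]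

private theorem ite_eq_ind (a : ZMod 2) : (if a = 0 then (0 : ℝ) else 1) = ind (a ≠ 0) := by
  by_cases h : a = 0 <;> simp [ind, h]

private theorem finsum_ind {α : Type*} [Finite α] (p : α → Prop) :
    (∑ᶠ a : α, ind (p a)) = (Nat.card {a : α // p a} : ℝ) := by
  haveI := Fintype.ofFinite α
  rw [finsum_eq_sum_of_fintype, Nat.card_eq_fintype_card, Fintype.card_subtype]
  simp [ind]

theorem dl_add (f g : Finset S → G → ZMod 2) : dl (f + g) = dl f + dl g := by
  funext J x
  simp [dl, Finset.sum_add_distrib]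

theorem dl_zero : dl (0 : Finset S → G → ZMod 2) = 0 := by
  funext J x
  simp [dl]

theorem dl_dl (f : Finset S → G → ZMod 2) : dl (dl f) = 0 := by
  funext J x
  change ∑ s ∈ J, ∑ t ∈ J.erase s, f ((J.erase s).erase t) x = 0
  rw [Finset.sum_sigma']
  refine Finset.sum_involution (fun a _ => ⟨a.2, a.1⟩) ?_ ?_ ?_ ?_
  · rintro ⟨s, t⟩ _
    change f ((J.erase s).erase t) x + f ((J.erase t).erase s) x = 0
    rw [Finset.erase_right_comm]
    exact CharTwo.add_self_eq_zero _
  · rintro ⟨s, t⟩ h _ heq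
    simp only [Finset.mem_sigma, Finset.mem_erase] at h
    exact h.2.1 (congrArg Sigma.fst heq)
  · rintro ⟨s, t⟩ h
    simp only [Finset.mem_sigma, Finset.mem_erase] at h ⊢
    exact ⟨h.2.2, Ne.symm h.2.1, h.1⟩
  · rintro ⟨s, t⟩ _
    rfl

theorem _root_.Vale.P067.InvL.add {H : S → Subgroup G} {J0 : Finset S} {i : ℕ} {f g : Finset S → G → ZMod 2}
    (hf : InvL H J0 i f) (hg : InvL H J0 i g) : InvL H J0 i (f + g) := by
  intro J hd hc x h hh
  simp [hf J hd hc x h hh, hg J hd hc x h hh]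

theorem _root_.Vale.P067.InvL.dl {H : S → Subgroup G} {J0 : Finset S} {i : ℕ} {f : Finset S → G → ZMod 2}
    (hf : InvL H J0 i f) : InvL H J0 (i + 1) (dl f) := by
  intro J hd hc x h hh
  change ∑ s ∈ J, f (J.erase s) (x * h) = ∑ s ∈ J, f (J.erase s) x
  refine Finset.sum_congr rfl (fun s hs => ?_)
  refine hf _ (Finset.disjoint_of_subset_left (Finset.erase_subset _ _) hd) ?_ x h ?_
  · rw [Finset.card_erase_of_mem hs, hc]; rfl
  · exact HH_anti H (Finset.union_subset_union_right (Finset.erase_subset _ _)) hh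

theorem _root_.Vale.P067.InvL.lk {H : S → Subgroup G} {K : ℕ} {f : Finset S → G → ZMod 2}
    (hf : InvL H ∅ K f) (J0 : Finset S) (h : J0.card ≤ K) :
    InvL H J0 (K - J0.card) (lk f J0) := by
  intro J hd hc x g hg
  change f (J0 ∪ J) (x * g) = f (J0 ∪ J) x
  refine hf _ (Finset.disjoint_empty_right _) ?_ x g ?_
  · rw [Finset.card_union_of_disjoint hd.symm, hc]; omega
  · rw [Finset.empty_union]; exact hg

theorem _root_.Vale.P067.InvL.zero (H : S → Subgroup G) (J0 : Finset S) (i : ℕ) :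
    InvL H J0 i (0 : Finset S → G → ZMod 2) := by
  intro J _ _ x h _
  rfl

variable [Finite G] (H : S → Subgroup G)

theorem Spec_mono {lam lam' : ℝ} (h : lam ≤ lam') (hs : Spec H lam) : Spec H lam' := by
  intro J0 s t h1 h2 h3 φ ψ h4 h5 x
  exact (hs J0 s t h1 h2 h3 φ ψ h4 h5 x).trans
    (mul_le_mul_of_nonneg_right h (Real.sqrt_nonneg _))

theorem nm_nonneg (J0 : Finset S) (x : G) (i : ℕ) (f : Finset S → G → ZMod 2) :
    0 ≤ nm H J0 x i f := by
  refine Finset.sum_nonneg (fun J _ => av_nonneg H J0 x _ (fun y => ?_))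
  rw [ite_eq_ind]
  exact ind_nonneg _

theorem nm_congr (J0 : Finset S) (x : G) (i : ℕ) (f g : Finset S → G → ZMod 2)
    (h : ∀ J : Finset S, Disjoint J J0 → J.card = i → ∀ y, f J y = g J y) :
    nm H J0 x i f = nm H J0 x i g := by
  refine Finset.sum_congr rfl (fun J hJ => ?_)
  rw [Finset.mem_powersetCard] at hJ
  have hd : Disjoint J J0 := Finset.disjoint_left.mpr
    (fun a ha => Finset.mem_compl.mp (hJ.1 ha))
  congr 1
  funext y
  rw [h J hd hJ.2 y]

theorem nm_add_le (J0 : Finset S) (x : G) (i : ℕ) (f g : Finset S → G → ZMod 2) :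
    nm H J0 x i (f + g) ≤ nm H J0 x i f + nm H J0 x i g := by
  unfold nm
  rw [← Finset.sum_add_distrib]
  refine Finset.sum_le_sum (fun J _ => ?_)
  rw [← av_add]
  refine av_mono H J0 x _ _ (fun y => ?_)
  simp only [Pi.add_apply]
  by_cases h1 : f J y = 0 <;> by_cases h2 : g J y = 0 <;> simp [h1, h2]
  split_ifs <;> norm_num

theorem nm_le_pow (J0 : Finset S) (x : G) (i : ℕ) (f : Finset S → G → ZMod 2) :
    nm H J0 x i f ≤ 2 ^ Fintype.card S := by
  have h1 : nm H J0 x i f ≤ ∑ J ∈ (J0ᶜ).powersetCard i, (1 : ℝ) := by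
    refine Finset.sum_le_sum (fun J _ => ?_)
    calc av H J0 x (fun y => if f J y = 0 then 0 else 1)
        ≤ av H J0 x (fun _ => (1 : ℝ)) := by
          refine av_mono H J0 x _ _ (fun y => ?_)
          rw [ite_eq_ind]
          exact ind_le_one _
      _ = 1 := av_const H J0 x 1
  refine h1.trans ?_
  rw [Finset.sum_const, nsmul_eq_mul, mul_one]
  have h2 : ((J0ᶜ).powersetCard i).card ≤ 2 ^ Fintype.card S := by
    calc ((J0ᶜ).powersetCard i).card ≤ (Finset.univ : Finset (Finset S)).card :=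
          Finset.card_le_card (Finset.subset_univ _)
      _ = 2 ^ Fintype.card S := by rw [Finset.card_univ, Fintype.card_finset]
  exact_mod_cast h2

theorem nm_empty (x : G) (i : ℕ) (f : Finset S → G → ZMod 2) :
    nm H ∅ x i f = ∑ J ∈ (Finset.univ : Finset S).powersetCard i, Ex (fun y => ind (f J y ≠ 0)) := by
  unfold nm
  rw [Finset.compl_empty]
  refine Finset.sum_congr rfl (fun J _ => ?_)
  rw [av_empty]
  congr 1
  funext y
  exact ite_eq_ind _

theorem Ex_nm (J0 : Finset S) (i : ℕ) (f : Finset S → G → ZMod 2) :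
    Ex (fun x => nm H J0 x i f) =
      ∑ J ∈ (J0ᶜ).powersetCard i, Ex (fun y => ind (f J y ≠ 0)) := by
  unfold nm
  rw [Ex_sum]
  refine Finset.sum_congr rfl (fun J _ => ?_)
  rw [Ex_av]
  congr 1
  funext y
  exact ite_eq_ind _

theorem nm_eq_zero (x : G) (i : ℕ) (f : Finset S → G → ZMod 2) (h : nm H ∅ x i f = 0)
    (J : Finset S) (hJ : J.card = i) (y : G) : f J y = 0 := by
  rw [nm_empty] at h
  have h1 := (Finset.sum_eq_zero_iff_of_nonneg
    (fun J _ => Ex_nonneg _ (fun y => ind_nonneg _))).mp h J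
    (Finset.mem_powersetCard.mpr ⟨Finset.subset_univ _, hJ⟩)
  have h2 := Ex_eq_zero _ (fun y => ind_nonneg _) h1 y
  by_contra h3
  simp [ind, h3] at h2

theorem cnt_eq (x : G) (K : ℕ) (f : Finset S → G → ZMod 2) :
    (cnt K f : ℝ) = Nat.card G * nm H ∅ x K f := by
  rw [nm_empty, cnt, Nat.cast_sum, Finset.mul_sum]
  refine Finset.sum_congr rfl (fun J _ => ?_)
  have hG : (Nat.card G : ℝ) ≠ 0 := by
    exact_mod_cast Nat.card_pos.ne'
  rw [Ex, finsum_ind, mul_div_cancel₀]
  exact hG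

theorem cntL_eq (J0 : Finset S) (x0 : G) (i : ℕ) (f : Finset S → G → ZMod 2) :
    (cntL H J0 x0 i f : ℝ) = Nat.card (HH H J0) * nm H J0 x0 i f := by
  rw [nm, cntL, Nat.cast_sum, Finset.mul_sum]
  refine Finset.sum_congr rfl (fun J _ => ?_)
  have hG : (Nat.card (HH H J0) : ℝ) ≠ 0 := by
    exact_mod_cast Nat.card_pos.ne'
  simp only [ite_eq_ind]
  rw [av, finsum_ind, mul_div_cancel₀]
  exact hG

end Vale.P067.PA
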